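import Vale.Agent.P249.Sampling

/-!
Basic facts on the distance `dd q y`, the `q`-th root of `pd q y`, of a finite family of vectors,
and the elementary inequalities used by the three steps of the subpolynomial dimension reduction.
-/

namespace Vale.Agent.P249.Sub

open Finset

/-- The `ℓ_q` distance between rows `x` and `y`. -/
noncomputable def dd (q : ℝ) {n : ℕ} {κ : Type*} [Fintype κ] (y : Fin n → κ → ℝ)
    (i j : Fin n) : ℝ :=
  pd q y i j ^ q⁻¹

variable {q : ℝ} {n : ℕ} {κ : Type*} [Fintype κ] {y : Fin n → κ → ℝ}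

theorem dd_nonneg (i j : Fin n) : 0 ≤ dd q y i j := Real.rpow_nonneg (pd_nonneg _ _ _) _

theorem dd_rpow (hq : 0 < q) (i j : Fin n) : dd q y i j ^ q = pd q y i j :=
  Real.rpow_inv_rpow (pd_nonneg _ _ _) hq.ne'

theorem dd_comm (i j : Fin n) : dd q y i j = dd q y j i := by rw [dd, dd, pd_comm]

theorem dd_self (hq : 0 < q) (i : Fin n) : dd q y i i = 0 := by
  rw [dd, pd_self hq, Real.zero_rpow (inv_ne_zero hq.ne')]

theorem abs_sub_le_dd (hq : 0 < q) (i j : Fin n) (k : κ) : |y i k - y j k| ≤ dd q y i j := by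
  calc |y i k - y j k| = (|y i k - y j k| ^ q) ^ q⁻¹ :=
        (Real.rpow_rpow_inv (abs_nonneg _) hq.ne').symm
    _ ≤ _ := Real.rpow_le_rpow (Real.rpow_nonneg (abs_nonneg _) _) (rpow_le_pd y i j k)
        (inv_nonneg.2 hq.le)

theorem dd_triangle (hq : 1 ≤ q) (i j k : Fin n) :
    dd q y i k ≤ dd q y i j + dd q y j k := by
  have h := Real.Lp_add_le Finset.univ (fun l => y i l - y j l) (fun l => y j l - y k l) hq
  simp only [dd, pd, ← one_div]
  simpa [sub_add_sub_cancel] using h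

/-- The Minkowski inequality in the form used for perturbations. -/
theorem sum_rpow_root_add_le {ι : Type*} (hq : 1 ≤ q) (s : Finset ι) (f g : ι → ℝ) :
    (∑ i ∈ s, |f i + g i| ^ q) ^ q⁻¹ ≤
      (∑ i ∈ s, |f i| ^ q) ^ q⁻¹ + (∑ i ∈ s, |g i| ^ q) ^ q⁻¹ := by
  simp only [← one_div]
  exact Real.Lp_add_le s f g hq

theorem add_rpow_le {a b : ℝ} (ha : 0 ≤ a) (hb : 0 ≤ b) (hq : 1 ≤ q) :
    a ^ q + b ^ q ≤ (a + b) ^ q := by
  have h := NNReal.add_rpow_le_rpow_add ⟨a, ha⟩ ⟨b, hb⟩ hq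
  have := NNReal.coe_le_coe.2 h
  simp only [NNReal.coe_add, NNReal.coe_rpow] at this
  exact this

theorem add_rpow_le_two_rpow_mul {a b : ℝ} (ha : 0 ≤ a) (hb : 0 ≤ b) (hq : 0 ≤ q) :
    (a + b) ^ q ≤ 2 ^ q * (a ^ q + b ^ q) := by
  rcases le_total a b with h | h
  · calc (a + b) ^ q ≤ (2 * b) ^ q := Real.rpow_le_rpow (by linarith) (by linarith) hq
      _ = 2 ^ q * b ^ q := Real.mul_rpow two_pos.le hb
      _ ≤ _ := mul_le_mul_of_nonneg_left (by linarith [Real.rpow_nonneg ha q]) (by positivity)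
  · calc (a + b) ^ q ≤ (2 * a) ^ q := Real.rpow_le_rpow (by linarith) (by linarith) hq
      _ = 2 ^ q * a ^ q := Real.mul_rpow two_pos.le ha
      _ ≤ _ := mul_le_mul_of_nonneg_left (by linarith [Real.rpow_nonneg hb q]) (by positivity)

/-- A geometric series over any finite set of integers bounded below. -/
theorem sum_zpow_le {r : ℝ} (h0 : 0 < r) (h1 : r < 1) (S : Finset ℤ) (a : ℤ)
    (hS : ∀ j ∈ S, a ≤ j) : ∑ j ∈ S, r ^ j ≤ r ^ a / (1 - r) := by
  classical
  set T := S.image fun j => (j - a).toNat with hT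
  have hinj : Set.InjOn (fun j => (j - a).toNat) S := fun i hi j hj h => by
    have := hS i hi; have := hS j hj; simp only at h; omega
  calc ∑ j ∈ S, r ^ j = ∑ j ∈ S, r ^ a * r ^ ((j - a).toNat) := Finset.sum_congr rfl fun j hj => by
        rw [← zpow_natCast, ← zpow_add₀ h0.ne']
        congr 1
        have := hS j hj
        omega
    _ = r ^ a * ∑ k ∈ T, r ^ k := by rw [Finset.mul_sum, hT, Finset.sum_image hinj]
    _ ≤ r ^ a * ∑' k, r ^ k := mul_le_mul_of_nonneg_left
        ((summable_geometric_of_lt_one h0.le h1).sum_le_tsum _ fun k _ => by positivity)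
        (by positivity)
    _ = _ := by rw [tsum_geometric_of_lt_one h0.le h1, div_eq_mul_inv]

/-- The same with the exponents bounded above. -/
theorem sum_zpow_le_of_le {r : ℝ} (h1 : 1 < r) (S : Finset ℤ) (a : ℤ)
    (hS : ∀ j ∈ S, j ≤ a) : ∑ j ∈ S, r ^ j ≤ r ^ a / (1 - r⁻¹) := by
  classical
  have h := sum_zpow_le (inv_pos.2 (by linarith)) (inv_lt_one_of_one_lt₀ h1) (S.image Neg.neg) (-a)
    fun j hj => by
      obtain ⟨i, hi, rfl⟩ := Finset.mem_image.1 hj
      linarith [hS i hi]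
  rw [Finset.sum_image fun i _ j _ h => neg_injective h] at h
  simpa using h

/-- `q`-th powers are superadditive on nonnegative numbers. -/
theorem sum_rpow_le_rpow_sum {ι : Type*} (hq : 1 ≤ q) (s : Finset ι) (f : ι → ℝ)
    (hf : ∀ i ∈ s, 0 ≤ f i) : ∑ i ∈ s, f i ^ q ≤ (∑ i ∈ s, f i) ^ q := by
  classical
  induction s using Finset.induction_on with
  | empty => simp [Real.zero_rpow (by linarith : q ≠ 0)]
  | insert a s ha ih =>
    rw [Finset.sum_insert ha, Finset.sum_insert ha]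
    have h1 : 0 ≤ ∑ i ∈ s, f i := Finset.sum_nonneg fun i hi => hf i (Finset.mem_insert_of_mem hi)
    have h2 := hf a (Finset.mem_insert_self a s)
    calc f a ^ q + ∑ i ∈ s, f i ^ q ≤ f a ^ q + (∑ i ∈ s, f i) ^ q :=
          add_le_add_right (ih fun i hi => hf i (Finset.mem_insert_of_mem hi)) _
      _ ≤ _ := add_rpow_le h2 h1 hq

end Vale.Agent.P249.Sub
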