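import Vale.Agent.P249.Defs

/-!
The statement of dimension reduction with dimension `n ^ o(1)` at every distortion above one.
-/

namespace Vale.Agent.P249

universe u

/-- For every finite `p > 1` and every `D > 1`: dimension `exp (C (log n) ^ θ)` for each `θ` with
`max (1/p) (1 - 1/p) < θ < 1`, and in particular dimension `C n ^ δ` for each `δ > 0`. -/
def SubpolynomialDim : Prop :=
  ∀ (p : ENNReal) [Fact (1 ≤ p)], 1 < p → p ≠ ⊤ → ∀ D : ℝ, 1 < D →
    (∀ θ : ℝ, max (1 / p.toReal) (1 - 1 / p.toReal) < θ → θ < 1 → ∃ C : ℝ,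
      ∀ n : ℕ, 2 ≤ n → EmbedsWithDim.{u} p n D (Real.exp (C * Real.log n ^ θ))) ∧
    ∀ δ : ℝ, 0 < δ → ∃ C : ℝ, ∀ n : ℕ, 2 ≤ n → EmbedsWithDim.{u} p n D (C * (n : ℝ) ^ δ)

end Vale.Agent.P249
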