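import Vale.Agent.P249.Sub.Basic

/-!
Two bounded Lipschitz features of a real number that vanish near zero and jointly separate any two
numbers at distance between one and two.
-/

namespace Vale.Agent.P249.Sub

open Finset

/-- Cutoff vanishing on `|t| ≤ 1/4` and equal to one on `|t| ≥ 1/2`. -/
noncomputable def cut (t : ℝ) : ℝ := min 1 (max 0 (4 * |t| - 1))

theorem cut_nonneg (t : ℝ) : 0 ≤ cut t := le_min zero_le_one (le_max_left _ _)

theorem cut_le_one (t : ℝ) : cut t ≤ 1 := min_le_left _ _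

theorem cut_eq_zero {t : ℝ} (h : |t| ≤ 1 / 4) : cut t = 0 := by
  rw [cut, max_eq_left (by linarith), min_eq_right zero_le_one]

theorem cut_eq_one {t : ℝ} (h : 1 / 2 ≤ |t|) : cut t = 1 :=
  min_eq_left (le_max_of_le_right (by linarith))

theorem abs_cut_sub_le (s t : ℝ) : |cut s - cut t| ≤ 4 * |s - t| := by
  have h1 : |cut s - cut t| ≤ |(4 * |s| - 1) - (4 * |t| - 1)| := by
    refine (abs_min_sub_min_le_max _ _ _ _).trans (max_le (by simp) ?_)
    refine (abs_max_sub_max_le_max _ _ _ _).trans (max_le (by simp) le_rfl)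
  refine h1.trans ?_
  rw [show 4 * |s| - 1 - (4 * |t| - 1) = 4 * (|s| - |t|) by ring, abs_mul, abs_of_pos four_pos]
  exact mul_le_mul_of_nonneg_left (abs_abs_sub_abs_le_abs_sub s t) four_pos.le

/-- The two features. -/
noncomputable def feat (b : Bool) (t : ℝ) : ℝ := cut t * (if b then Real.cos t else Real.sin t)

theorem abs_feat_le (b : Bool) (t : ℝ) : |feat b t| ≤ 1 := by
  rw [feat, abs_mul, abs_of_nonneg (cut_nonneg t), ← one_mul (1 : ℝ)]
  refine mul_le_mul (cut_le_one t) ?_ (abs_nonneg _) zero_le_one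
  cases b <;> simp [Real.abs_cos_le_one, Real.abs_sin_le_one]

theorem feat_eq_zero (b : Bool) {t : ℝ} (h : |t| ≤ 1 / 4) : feat b t = 0 := by
  rw [feat, cut_eq_zero h, zero_mul]

theorem abs_feat_sub_le (b : Bool) (s t : ℝ) : |feat b s - feat b t| ≤ 5 * |s - t| := by
  set f : ℝ → ℝ := fun t => if b then Real.cos t else Real.sin t with hf
  have h1 : |f s - f t| ≤ |s - t| := by
    cases b <;> simp [hf, Real.abs_cos_sub_cos_le, Real.abs_sin_sub_sin_le]
  have h2 : |f s| ≤ 1 := by
    cases b <;> simp [hf, Real.abs_cos_le_one, Real.abs_sin_le_one]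
  calc |feat b s - feat b t| = |(cut s - cut t) * f s + cut t * (f s - f t)| := by
        simp only [feat, hf]; ring_nf
    _ ≤ |cut s - cut t| * |f s| + cut t * |f s - f t| := by
        refine (abs_add_le _ _).trans (le_of_eq ?_)
        rw [abs_mul, abs_mul, abs_of_nonneg (cut_nonneg t)]
    _ ≤ 4 * |s - t| * 1 + 1 * |s - t| :=
        add_le_add (mul_le_mul (abs_cut_sub_le s t) h2 (abs_nonneg _) (by positivity))
          (mul_le_mul (cut_le_one t) h1 (abs_nonneg _) zero_le_one)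
    _ = _ := by ring

theorem sq_feat_sub_le (b : Bool) {β : ℝ} (hβ : 0 ≤ β) (hβ2 : β ≤ 2) (s t : ℝ) :
    (feat b s - feat b t) ^ 2 ≤ 25 * |s - t| ^ β := by
  rw [← sq_abs]
  rcases le_total (|s - t|) 1 with h | h
  · rcases (abs_nonneg (s - t)).eq_or_lt with h0 | h0
    · have := abs_feat_sub_le b s t
      rw [← h0, mul_zero] at this
      rw [le_antisymm this (abs_nonneg _)]
      simp [Real.rpow_nonneg]
    calc |feat b s - feat b t| ^ 2 ≤ (5 * |s - t|) ^ 2 :=
          pow_le_pow_left₀ (abs_nonneg _) (abs_feat_sub_le b s t) 2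
      _ = 25 * |s - t| ^ (2 : ℝ) := by rw [Real.rpow_two]; ring
      _ ≤ _ := mul_le_mul_of_nonneg_left (Real.rpow_le_rpow_of_exponent_ge h0 h hβ2) (by norm_num)
  · have h2 : |feat b s - feat b t| ≤ 2 :=
      (abs_sub _ _).trans (by linarith [abs_feat_le b s, abs_feat_le b t])
    calc |feat b s - feat b t| ^ 2 ≤ (2 : ℝ) ^ 2 := pow_le_pow_left₀ (abs_nonneg _) h2 2
      _ ≤ 25 * 1 := by norm_num
      _ ≤ _ := mul_le_mul_of_nonneg_left (Real.one_le_rpow h hβ) (by norm_num)

theorem sq_feat_sub_ge {s t : ℝ} (h1 : 1 ≤ |s - t|) (h2 : |s - t| ≤ 2) :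
    5 / 9 ≤ (feat true s - feat true t) ^ 2 + (feat false s - feat false t) ^ 2 := by
  have e : (feat true s - feat true t) ^ 2 + (feat false s - feat false t) ^ 2 =
      cut s ^ 2 + cut t ^ 2 - 2 * cut s * cut t * Real.cos (s - t) := by
    simp only [feat, if_true, Bool.false_eq_true, if_false, Real.cos_sub]
    linear_combination cut s ^ 2 * Real.sin_sq_add_cos_sq s + cut t ^ 2 * Real.sin_sq_add_cos_sq t
  rw [e]
  have hc : Real.cos (s - t) ≤ 2 / 3 := by
    rw [← Real.cos_abs]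
    have h : Real.cos |s - t| ≤ Real.cos 1 :=
      Real.cos_le_cos_of_nonneg_of_le_pi zero_le_one (by linarith [Real.two_le_pi]) h1
    linarith [Real.cos_one_le]
  have h0 := cut_nonneg s
  have h0' := cut_nonneg t
  have hmul : cut s * cut t * Real.cos (s - t) ≤ cut s * cut t * (2 / 3) :=
    mul_le_mul_of_nonneg_left hc (mul_nonneg h0 h0')
  by_cases hs : 1 / 2 ≤ |s|
  · rw [cut_eq_one hs] at hmul ⊢
    nlinarith [sq_nonneg (cut t - 2 / 3)]
  · have ht : 1 / 2 ≤ |t| := by linarith [abs_sub s t]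
    rw [cut_eq_one ht] at hmul ⊢
    nlinarith [sq_nonneg (cut s - 2 / 3)]

end Vale.Agent.P249.Sub
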