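import Mathlib

/-!
Online prediction of independent biased bits by a mixture over finitely many hypotheses.
A list entry is a tag together with the bias of the bit under each hypothesis. The expected
squared error of the mixture mean is at most logarithmic, and for two hypotheses it is bounded
below by their squared bias differences as long as their transcript laws have large affinity.
-/

namespace Vale.Agent.P249.Sub

open Finset

variable {V κ : Type*} [Fintype V]

/-- Mean bias under the weights `w`. -/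
noncomputable def mixMean (w ψ : V → ℝ) : ℝ := (∑ z, w z * ψ z) / ∑ z, w z

/-- Weights after observing a bit of sign `b`. -/
noncomputable def observe (w ψ : V → ℝ) (b : ℝ) : V → ℝ := fun z => w z * ((1 + b * ψ z) / 2)

/-- Expected squared prediction error, under hypothesis `x`, on the bits with tag `k`. -/
noncomputable def sqErr [DecidableEq κ] : List (κ × (V → ℝ)) → (V → ℝ) → V → κ → ℝ
  | [], _, _, _ => 0
  | (k', ψ) :: L, w, x, k => (if k' = k then (ψ x - mixMean w ψ) ^ 2 else 0) +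
      ((1 + ψ x) / 2 * sqErr L (observe w ψ 1) x k +
        (1 - ψ x) / 2 * sqErr L (observe w ψ (-1)) x k)

/-- All biases are at most one half in absolute value. -/
def Biased (L : List (κ × (V → ℝ))) : Prop := ∀ e ∈ L, ∀ z, |e.2 z| ≤ 1 / 2

omit [Fintype V] in
theorem Biased.tail {e : κ × (V → ℝ)} {L : List (κ × (V → ℝ))} (h : Biased (e :: L)) : Biased L :=
  fun a ha => h a (List.mem_cons_of_mem e ha)

omit [Fintype V] in
theorem Biased.head {e : κ × (V → ℝ)} {L : List (κ × (V → ℝ))} (h : Biased (e :: L)) (z : V) :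
    |e.2 z| ≤ 1 / 2 :=
  h e List.mem_cons_self z

theorem sqErr_nonneg [DecidableEq κ] {L : List (κ × (V → ℝ))} (hL : Biased L) (w : V → ℝ) (x : V)
    (k : κ) : 0 ≤ sqErr L w x k := by
  induction L generalizing w with
  | nil => simp [sqErr]
  | cons e L ih =>
    obtain ⟨k', ψ⟩ := e
    have h := abs_le.1 (hL.head x)
    simp only at h
    rw [sqErr]
    refine add_nonneg (by split_ifs <;> positivity) (add_nonneg ?_ ?_) <;>
      exact mul_nonneg (by linarith) (ih hL.tail _)

theorem abs_mixMean_le {w ψ : V → ℝ} (hw : ∀ z, 0 ≤ w z) (hψ : ∀ z, |ψ z| ≤ 1 / 2)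
    (hs : 0 < ∑ z, w z) : |mixMean w ψ| ≤ 1 / 2 := by
  rw [mixMean, abs_div, abs_of_pos hs, div_le_iff₀ hs, Finset.mul_sum]
  refine (Finset.abs_sum_le_sum_abs _ _).trans (Finset.sum_le_sum fun z _ => ?_)
  rw [abs_mul, abs_of_nonneg (hw z), mul_comm (1 / 2 : ℝ)]
  exact mul_le_mul_of_nonneg_left (hψ z) (hw z)

theorem sum_observe {w ψ : V → ℝ} (hs : 0 < ∑ z, w z) (b : ℝ) :
    ∑ z, observe w ψ b z = (∑ z, w z) * ((1 + b * mixMean w ψ) / 2) := by
  simp only [observe, mixMean]
  rw [mul_div_assoc', mul_add, mul_one, ← mul_assoc, mul_comm _ b, mul_assoc,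
    mul_div_cancel₀ _ hs.ne', Finset.mul_sum, ← Finset.sum_add_distrib, Finset.sum_div]
  exact Finset.sum_congr rfl fun z _ => by ring

/-- Relative entropy of two bits dominates the squared distance of their biases. -/
theorem kl_bit {ψ m : ℝ} (hψ : |ψ| ≤ 1 / 2) (hm : |m| ≤ 1 / 2) :
    (1 + ψ) / 2 * Real.log (((1 + m) / 2) / ((1 + ψ) / 2)) +
      (1 - ψ) / 2 * Real.log (((1 - m) / 2) / ((1 - ψ) / 2)) ≤ -((ψ - m) ^ 2 / 8) := by
  obtain ⟨h1, h2⟩ := abs_le.1 hψ
  obtain ⟨h3, h4⟩ := abs_le.1 hm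
  have key : ∀ a b : ℝ, 0 < a → a ≤ 1 → 0 < b → b ≤ 1 →
      a * Real.log (b / a) ≤ (b - a) - (a - b) ^ 2 / 4 := by
    intro a b ha ha1 hb hb1
    obtain ⟨u, hu, rfl⟩ : ∃ u, 0 < u ∧ u ^ 2 = a := ⟨√a, Real.sqrt_pos.2 ha, Real.sq_sqrt ha.le⟩
    obtain ⟨v, hv, rfl⟩ : ∃ v, 0 < v ∧ v ^ 2 = b := ⟨√b, Real.sqrt_pos.2 hb, Real.sq_sqrt hb.le⟩
    have hu1 : u ≤ 1 := by nlinarith
    have hv1 : v ≤ 1 := by nlinarith
    rw [← div_pow, Real.log_pow, Nat.cast_two]
    have h := Real.log_le_sub_one_of_pos (div_pos hv hu)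
    calc u ^ 2 * (2 * Real.log (v / u)) ≤ u ^ 2 * (2 * (v / u - 1)) := by gcongr
      _ = (v ^ 2 - u ^ 2) - (u - v) ^ 2 := by field_simp; ring
      _ ≤ _ := by
        have : (u ^ 2 - v ^ 2) ^ 2 ≤ 4 * (u - v) ^ 2 := by
          rw [show (u ^ 2 - v ^ 2) ^ 2 = (u + v) ^ 2 * (u - v) ^ 2 by ring]
          exact mul_le_mul_of_nonneg_right (by nlinarith) (sq_nonneg _)
        linarith
  have e1 := key ((1 + ψ) / 2) ((1 + m) / 2) (by linarith) (by linarith) (by linarith) (by linarith)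
  have e2 := key ((1 - ψ) / 2) ((1 - m) / 2) (by linarith) (by linarith) (by linarith) (by linarith)
  linarith

/-- The regret bound of the mixture. -/
theorem sum_sqErr_le [Fintype κ] [DecidableEq κ] {L : List (κ × (V → ℝ))} (hL : Biased L)
    {w : V → ℝ} (hw : ∀ z, 0 ≤ w z) {x : V} (hx : 0 < w x) :
    ∑ k, sqErr L w x k ≤ 8 * Real.log ((∑ z, w z) / w x) := by
  induction L generalizing w with
  | nil =>
    simp only [sqErr, Finset.sum_const_zero]
    refine mul_nonneg (by norm_num) (Real.log_nonneg ?_)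
    rw [le_div_iff₀ hx, one_mul]
    exact Finset.single_le_sum (fun z _ => hw z) (Finset.mem_univ x)
  | cons e L ih =>
    obtain ⟨k', ψ⟩ := e
    have hψ : ∀ z, |ψ z| ≤ 1 / 2 := hL.head
    have hs : 0 < ∑ z, w z :=
      lt_of_lt_of_le hx (Finset.single_le_sum (fun z _ => hw z) (Finset.mem_univ x))
    obtain ⟨hx1, hx2⟩ := abs_le.1 (hψ x)
    obtain ⟨hm1, hm2⟩ := abs_le.1 (abs_mixMean_le hw hψ hs)
    have step : ∀ b : ℝ, |b| = 1 → ∑ k, sqErr L (observe w ψ b) x k ≤
        8 * (Real.log ((∑ z, w z) / w x) +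
          Real.log (((1 + b * mixMean w ψ) / 2) / ((1 + b * ψ x) / 2))) := by
      intro b hb
      have hbz : ∀ z, |b * ψ z| ≤ 1 / 2 := fun z => by rw [abs_mul, hb, one_mul]; exact hψ z
      have hbm : |b * mixMean w ψ| ≤ 1 / 2 := by
        rw [abs_mul, hb, one_mul]; exact abs_mixMean_le hw hψ hs
      have h1 : 0 < (1 + b * ψ x) / 2 := by linarith [(abs_le.1 (hbz x)).1]
      have h2 : 0 < (1 + b * mixMean w ψ) / 2 := by linarith [(abs_le.1 hbm).1]
      refine (ih hL.tail (w := observe w ψ b)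
        (fun z => mul_nonneg (hw z) (by linarith [(abs_le.1 (hbz z)).1]))
        (mul_pos hx h1)).trans (le_of_eq ?_)
      rw [sum_observe hs, observe, mul_div_mul_comm, Real.log_mul (div_pos hs hx).ne'
        (div_pos h2 h1).ne']
    have hp := step 1 abs_one
    have hm := step (-1) (by simp)
    simp only [one_mul, neg_one_mul, ← sub_eq_add_neg] at hp hm
    simp only [sqErr, Finset.sum_add_distrib, ← Finset.mul_sum, Finset.sum_ite_eq,
      Finset.mem_univ, if_true]
    have hk := kl_bit (hψ x) (abs_mixMean_le hw hψ hs)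
    have a1 := mul_le_mul_of_nonneg_left hp (show 0 ≤ (1 + ψ x) / 2 by linarith)
    have a2 := mul_le_mul_of_nonneg_left hm (show 0 ≤ (1 - ψ x) / 2 by linarith)
    linarith

/-- Squared bias differences of two hypotheses on the bits with tag `k`. -/
def gapSum [DecidableEq κ] (L : List (κ × (V → ℝ))) (x y : V) (k : κ) : ℝ :=
  (L.map fun e => if e.1 = k then (e.2 x - e.2 y) ^ 2 else 0).sum

/-- Squared bias differences of two hypotheses on all bits. -/
def gapAll (L : List (κ × (V → ℝ))) (x y : V) : ℝ := (L.map fun e => (e.2 x - e.2 y) ^ 2).sum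

omit [Fintype V] in
theorem gapAll_nonneg (L : List (κ × (V → ℝ))) (x y : V) : 0 ≤ gapAll L x y :=
  List.sum_nonneg fun a ha => by
    obtain ⟨e, _, rfl⟩ := List.mem_map.1 ha
    positivity

omit [Fintype V] in
theorem gapSum_nonneg [DecidableEq κ] (L : List (κ × (V → ℝ))) (x y : V) (k : κ) :
    0 ≤ gapSum L x y k :=
  List.sum_nonneg fun a ha => by
    obtain ⟨e, _, rfl⟩ := List.mem_map.1 ha
    split_ifs <;> positivity

/-- One minus the affinity of two bits is at most a quarter of the squared bias difference. -/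
theorem affinity_ge {a c : ℝ} (ha : |a| ≤ 1 / 2) (hc : |c| ≤ 1 / 2) :
    1 - (a - c) ^ 2 / 4 ≤ √((1 + a) / 2) * √((1 + c) / 2) + √((1 - a) / 2) * √((1 - c) / 2) := by
  obtain ⟨h1, h2⟩ := abs_le.1 ha
  obtain ⟨h3, h4⟩ := abs_le.1 hc
  have key : ∀ s t : ℝ, 1 / 4 ≤ s → 1 / 4 ≤ t → (s + t) / 2 - (s - t) ^ 2 / 2 ≤ √s * √t := by
    intro s t hs ht
    obtain ⟨u, hu, rfl⟩ : ∃ u, 1 / 2 ≤ u ∧ u ^ 2 = s :=
      ⟨√s, (Real.le_sqrt (by norm_num) (by linarith)).2 (by linarith), Real.sq_sqrt (by linarith)⟩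
    obtain ⟨v, hv, rfl⟩ : ∃ v, 1 / 2 ≤ v ∧ v ^ 2 = t :=
      ⟨√t, (Real.le_sqrt (by norm_num) (by linarith)).2 (by linarith), Real.sq_sqrt (by linarith)⟩
    rw [Real.sqrt_sq (by linarith), Real.sqrt_sq (by linarith),
      show (u ^ 2 - v ^ 2) ^ 2 = (u + v) ^ 2 * (u - v) ^ 2 by ring]
    nlinarith [mul_le_mul_of_nonneg_right (show 1 ≤ (u + v) ^ 2 by nlinarith) (sq_nonneg (u - v))]
  have e1 := key ((1 + a) / 2) ((1 + c) / 2) (by linarith) (by linarith)
  have e2 := key ((1 - a) / 2) ((1 - c) / 2) (by linarith) (by linarith)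
  linarith

theorem pair_sq_ge {p r : ℝ} (hp : 0 ≤ p) (hr : 0 ≤ r) (A B : ℝ) :
    (√p * √r / 2 - (p + r) / 16) * (A - B) ^ 2 ≤ p * A ^ 2 + r * B ^ 2 := by
  rcases (add_nonneg hp hr).eq_or_lt with h | h
  · obtain ⟨rfl, rfl⟩ : p = 0 ∧ r = 0 := ⟨by linarith, by linarith⟩
    simp
  refine le_of_mul_le_mul_left ?_ h
  have h2 : (√p * √r) ^ 2 = p * r := by rw [mul_pow, Real.sq_sqrt hp, Real.sq_sqrt hr]
  have h3 : (p + r) * (√p * √r / 2 - (p + r) / 16) ≤ p * r := by
    nlinarith [sq_nonneg (√p * √r - (p + r) / 4)]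
  nlinarith [mul_le_mul_of_nonneg_right h3 (sq_nonneg (A - B)), sq_nonneg (p * A + r * B)]

/-- Two hypotheses cannot both be predicted well while their affinity is large. -/
theorem sqErr_pair_ge [DecidableEq κ] {L₁ L₂ : List (κ × (V → ℝ))} (hL : Biased (L₁ ++ L₂))
    (w : V → ℝ) {p r : ℝ} (hp : 0 ≤ p) (hr : 0 ≤ r) (x y : V) (k : κ) :
    (√p * √r * (1 - gapAll L₁ x y / 4) / 2 - (p + r) / 16) * gapSum L₁ x y k ≤
      p * sqErr (L₁ ++ L₂) w x k + r * sqErr (L₁ ++ L₂) w y k := by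
  induction L₁ generalizing w p r with
  | nil =>
    simp only [List.nil_append] at hL ⊢
    have h1 := mul_nonneg hp (sqErr_nonneg hL w x k)
    have h2 := mul_nonneg hr (sqErr_nonneg hL w y k)
    simp only [gapSum, List.map_nil, List.sum_nil, mul_zero]
    linarith
  | cons e L ih =>
    obtain ⟨k', ψ⟩ := e
    rw [List.cons_append] at hL
    obtain ⟨hx1, hx2⟩ := abs_le.1 (hL.head x)
    obtain ⟨hy1, hy2⟩ := abs_le.1 (hL.head y)
    simp only at hx1 hx2 hy1 hy2
    set a := (1 + ψ x) / 2 with ha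
    set a' := (1 - ψ x) / 2 with ha'
    set c := (1 + ψ y) / 2 with hc
    set c' := (1 - ψ y) / 2 with hc'
    have ha0 : 0 ≤ a := by linarith
    have ha0' : 0 ≤ a' := by linarith
    have hc0 : 0 ≤ c := by linarith
    have hc0' : 0 ≤ c' := by linarith
    have ip := ih hL.tail (observe w ψ 1) (mul_nonneg hp ha0) (mul_nonneg hr hc0)
    have im := ih hL.tail (observe w ψ (-1)) (mul_nonneg hp ha0') (mul_nonneg hr hc0')
    rw [Real.sqrt_mul hp, Real.sqrt_mul hr] at ip im
    have hbc : 1 - (ψ x - ψ y) ^ 2 / 4 ≤ √a * √c + √a' * √c' := affinity_ge (hL.head x) (hL.head y)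
    have hbc1 : √a * √c + √a' * √c' ≤ 1 := by
      have s1 : √a * √a = a := Real.mul_self_sqrt ha0
      have s2 : √c * √c = c := Real.mul_self_sqrt hc0
      have s3 : √a' * √a' = a' := Real.mul_self_sqrt ha0'
      have s4 : √c' * √c' = c' := Real.mul_self_sqrt hc0'
      nlinarith [sq_nonneg (√a - √c), sq_nonneg (√a' - √c')]
    set s := √p * √r with hs
    have hs0 : 0 ≤ s := by positivity
    set T := gapSum L x y k with hT
    set A := gapAll L x y with hA
    set D := (ψ x - ψ y) ^ 2 with hD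
    have hD0 : 0 ≤ D := sq_nonneg _
    have hA0 : 0 ≤ A := gapAll_nonneg L x y
    have hT0 : 0 ≤ T := gapSum_nonneg L x y k
    set BC := √a * √c + √a' * √c' with hBC
    have hmain : (s * (1 - (D + A) / 4) / 2 - (p + r) / 16) * T ≤
        (s * (BC * (1 - A / 4)) / 2 - (p + r) / 16) * T := by
      have : 1 - (D + A) / 4 ≤ BC * (1 - A / 4) := by nlinarith
      gcongr
    have hsum : (s * (BC * (1 - A / 4)) / 2 - (p + r) / 16) * T ≤
        p * a * sqErr (L ++ L₂) (observe w ψ 1) x k + r * c * sqErr (L ++ L₂) (observe w ψ 1) y k +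
        (p * a' * sqErr (L ++ L₂) (observe w ψ (-1)) x k +
          r * c' * sqErr (L ++ L₂) (observe w ψ (-1)) y k) := by
      refine le_trans (le_of_eq ?_) (add_le_add ip im)
      simp only [hBC, hs, ha, ha', hc, hc']
      ring
    have hgA : gapAll ((k', ψ) :: L) x y = D + A := by simp [gapAll, hA, hD]
    have hgS : gapSum ((k', ψ) :: L) x y k = (if k' = k then D else 0) + T := by
      simp [gapSum, hT, hD]
    rw [hgA, hgS, List.cons_append, sqErr, sqErr, ← ha, ← ha', ← hc, ← hc', mul_add _ _ T]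
    by_cases hk : k' = k
    · simp only [hk, if_true]
      have h1 := pair_sq_ge hp hr (ψ x - mixMean w ψ) (ψ y - mixMean w ψ)
      rw [sub_sub_sub_cancel_right] at h1
      have h2 : (s * (1 - (D + A) / 4) / 2 - (p + r) / 16) * D ≤ (s / 2 - (p + r) / 16) * D := by
        gcongr
        exact mul_le_of_le_one_right hs0 (by linarith)
      simp only [← hs, ← hD] at h1
      linarith
    · simp only [hk, if_false, mul_zero, zero_add, mul_add] at hsum ⊢
      linarith

end Vale.Agent.P249.Sub
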