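import Vale.Agent.P249.Centres
import Vale.Agent.P249.Sub.Basic

/-!
Centres of a finite pseudometric: first point, in a random order, of a ball with random radius.
Nearby points rarely get different centres.
-/

namespace Vale.Agent.P249.Sub

open Finset

variable {V : Type*} [Fintype V] [DecidableEq V]

/-- Closed ball of a distance function, as a finset. -/
noncomputable def dball (d : V → V → ℝ) (x : V) (r : ℝ) : Finset V := by
  classical exact Finset.univ.filter fun z => d z x ≤ r

omit [DecidableEq V] in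
theorem mem_dball {d : V → V → ℝ} {x z : V} {r : ℝ} : z ∈ dball d x r ↔ d z x ≤ r := by
  simp [dball]

/-- The centre of `x` for an order, a base radius, and one of `Q` refinements of the radius. -/
noncomputable def centre (d : V → V → ℝ) {Q : ℕ} (ω : Equiv.Perm V × Fin Q) (r : ℝ) (x : V) : V :=
  first ω.1 (dball d x (r * (1 + (ω.2 : ℕ) / Q))) x

omit [DecidableEq V] in
theorem centre_dist_le {d : V → V → ℝ} (hself : ∀ x, d x x = 0) {Q : ℕ}
    (ω : Equiv.Perm V × Fin Q) {r : ℝ} (hr : 0 ≤ r) (x : V) : d (centre d ω r x) x ≤ 2 * r := by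
  have h0 : (0 : ℝ) ≤ (ω.2 : ℕ) / Q := by positivity
  have h1 : ((ω.2 : ℕ) : ℝ) / Q ≤ 1 :=
    div_le_one_of_le₀ (by exact_mod_cast ω.2.isLt.le) (Nat.cast_nonneg _)
  have hR : 0 ≤ r * (1 + (ω.2 : ℕ) / Q) := by positivity
  refine (mem_dball.1 (first_mem ⟨x, mem_dball.2 (by rw [hself]; exact hR)⟩)).trans ?_
  nlinarith

/-- Averaged over all orders and radii, centres separate two points rarely. -/
theorem avg_centre_ne_le {d : V → V → ℝ} (hself : ∀ x, d x x = 0) (hsymm : ∀ x y, d x y = d y x)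
    (htri : ∀ x y z, d x z ≤ d x y + d y z) (hnn : ∀ x y, 0 ≤ d x y) {Q : ℕ} (hQ : 0 < Q)
    {r : ℝ} (hr : 0 < r) {x y : V} (hxy : d x y ≤ r) :
    (Fintype.card (Equiv.Perm V × Fin Q) : ℝ)⁻¹ *
      ∑ ω : Equiv.Perm V × Fin Q, (if centre d ω r x ≠ centre d ω r y then (1 : ℝ) else 0) ≤
      2 * (d x y / r + 1 / Q) * Real.log (Fintype.card V) := by
  classical
  have hV : (1 : ℝ) ≤ Fintype.card V := by
    exact_mod_cast Fintype.card_pos_iff.2 ⟨x⟩
  set δ := d x y with hδ
  have hδ0 : 0 ≤ δ := hnn x y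
  have hQR : (0 : ℝ) < Q := by exact_mod_cast hQ
  set e := r / Q with he
  have he0 : 0 < e := by positivity
  have hQe : (Q : ℝ) * e = r := by rw [he]; field_simp
  set m := ⌈δ / e⌉₊ with hm
  have hme : δ ≤ m * e := by
    have := Nat.le_ceil (δ / e); rwa [div_le_iff₀ he0] at this
  have hmQ : m ≤ Q := Nat.ceil_le.2 (by rw [div_le_iff₀ he0]; linarith)
  set F : ℕ → ℝ := fun j => Real.log (max 1 (dball d x (e * ((Q - m : ℕ) + j))).card : ℕ) with hF
  have hFle : ∀ j, F j ≤ Real.log (Fintype.card V) := fun j => by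
    refine Real.log_le_log (Nat.cast_pos.2 (lt_max_of_lt_left one_pos)) ?_
    refine Nat.cast_le.2 (max_le ?_ (Finset.card_le_univ _))
    exact Fintype.card_pos_iff.2 ⟨x⟩
  have hF0 : ∀ j, 0 ≤ F j := fun j => Real.log_natCast_nonneg _
  -- one radius
  have hone : ∀ k : Fin Q, (Fintype.card (Equiv.Perm V) : ℝ)⁻¹ *
      ∑ π : Equiv.Perm V, (if centre d (π, k) r x ≠ centre d (π, k) r y then (1 : ℝ) else 0) ≤
      F ((k : ℕ) + 2 * m) - F (k : ℕ) := by
    intro k
    set R := r * (1 + (k : ℕ) / (Q : ℝ)) with hR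
    have hRe : R = e * (Q + (k : ℕ)) := by rw [hR, he]; field_simp
    have hRge : r ≤ R := le_mul_of_one_le_right hr.le (le_add_of_nonneg_right (by positivity))
    set lo := e * (((Q - m : ℕ) : ℝ) + (k : ℕ)) with hlo
    set hi := e * (((Q - m : ℕ) : ℝ) + (((k : ℕ) + 2 * m : ℕ) : ℝ)) with hhi
    have hlo' : lo + δ ≤ R := by rw [hlo, hRe, Nat.cast_sub hmQ]; linarith
    have hhi' : R + δ ≤ hi := by rw [hhi, hRe, Nat.cast_sub hmQ]; push_cast; linarith
    have hlo0 : 0 ≤ lo := by positivity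
    set A := dball d x hi
    set I := dball d x lo
    have hIA : I ⊆ A := fun z hz => mem_dball.2 ((mem_dball.1 hz).trans (by linarith))
    have hxI : x ∈ I := mem_dball.2 (by rw [hself]; exact hlo0)
    have hbx : I ⊆ dball d x R ∧ dball d x R ⊆ A :=
      ⟨fun z hz => mem_dball.2 ((mem_dball.1 hz).trans (by linarith)),
        fun z hz => mem_dball.2 ((mem_dball.1 hz).trans (by linarith))⟩
    have hby : I ⊆ dball d y R ∧ dball d y R ⊆ A :=
      ⟨fun z hz => mem_dball.2 ((htri z x y).trans (by linarith [mem_dball.1 hz])),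
        fun z hz => mem_dball.2 ((htri z y x).trans (by linarith [mem_dball.1 hz, hsymm x y]))⟩
    have hsame : ∀ π : Equiv.Perm V, first π A x ∈ I →
        centre d (π, k) r x = centre d (π, k) r y := fun π hπ => by
      have h1 : centre d (π, k) r x = first π A x :=
        first_eq (hbx.1 hπ) fun w hw => rank_first_le (hbx.2 hw)
      have h2 : centre d (π, k) r y = first π A x :=
        first_eq (hby.1 hπ) fun w hw => rank_first_le (hby.2 hw)
      rw [h1, h2]
    have hK : (0 : ℝ) < Fintype.card (Equiv.Perm V) := by exact_mod_cast Fintype.card_pos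
    have hIc : (0 : ℝ) < I.card := by exact_mod_cast Finset.card_pos.2 ⟨x, hxI⟩
    have hAc : (0 : ℝ) < A.card := by exact_mod_cast Finset.card_pos.2 ⟨x, hIA hxI⟩
    calc (Fintype.card (Equiv.Perm V) : ℝ)⁻¹ *
          ∑ π : Equiv.Perm V, (if centre d (π, k) r x ≠ centre d (π, k) r y then (1 : ℝ) else 0)
        ≤ (Fintype.card (Equiv.Perm V) : ℝ)⁻¹ *
          ∑ π : Equiv.Perm V, (1 - if first π A x ∈ I then (1 : ℝ) else 0) := by
          gcongr with π
          by_cases h : first π A x ∈ I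
          · simp [h, hsame π h]
          · split_ifs <;> simp
      _ = 1 - (I.card : ℝ) / A.card := by
          rw [Finset.sum_sub_distrib, mul_sub, avg_first_mem x hIA]
          simp [hK.ne']
      _ ≤ Real.log ((A.card : ℝ) / I.card) := by
          refine le_trans (le_of_eq ?_) (Real.one_sub_inv_le_log_of_pos (div_pos hAc hIc))
          rw [inv_div]
      _ = _ := by
          rw [Real.log_div hAc.ne' hIc.ne', hF]
          simp only
          rw [max_eq_right (Finset.card_pos.2 ⟨x, hIA hxI⟩), max_eq_right (Finset.card_pos.2 ⟨x, hxI⟩)]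
  have hshift : ∑ k : Fin Q, (F ((k : ℕ) + 2 * m) - F (k : ℕ)) ≤
      2 * m * Real.log (Fintype.card V) := by
    rw [Fin.sum_univ_eq_sum_range (fun k => F (k + 2 * m) - F k), shift_sum]
    refine (Finset.sum_le_card_nsmul _ _ (Real.log (Fintype.card V)) fun j _ => ?_).trans_eq (by simp)
    linarith [hF0 j, hFle (Q + j)]
  have hK : (0 : ℝ) < Fintype.card (Equiv.Perm V) := by exact_mod_cast Fintype.card_pos
  rw [Fintype.card_prod, Fintype.card_fin, Nat.cast_mul, mul_inv, Fintype.sum_prod_type_right,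
    mul_comm (_⁻¹) ((Q : ℝ)⁻¹), mul_assoc, Finset.mul_sum]
  calc (Q : ℝ)⁻¹ * ∑ k : Fin Q, (Fintype.card (Equiv.Perm V) : ℝ)⁻¹ *
        ∑ π : Equiv.Perm V, (if centre d (π, k) r x ≠ centre d (π, k) r y then (1 : ℝ) else 0)
      ≤ (Q : ℝ)⁻¹ * (2 * m * Real.log (Fintype.card V)) := by
        gcongr
        exact (Finset.sum_le_sum fun k _ => hone k).trans hshift
    _ ≤ (Q : ℝ)⁻¹ * (2 * (δ / e + 1) * Real.log (Fintype.card V)) := by
        have hl := Real.log_nonneg hV
        gcongr
        exact (Nat.ceil_lt_add_one (by positivity)).le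
    _ = _ := by rw [he]; field_simp

end Vale.Agent.P249.Sub
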