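import Vale.Agent.P249.Sub.Spec
import Vale.Agent.P249.Sub.Predict
import Vale.Agent.P249.Sub.Feature
import Vale.Agent.P249.Sub.RandomCentre

/-!
Step A: intensities of total mass `O((log n)^(q - β + 1))` for every `1 < β ≤ 2` with `β < q`.
-/

namespace Vale.Agent.P249.Sub

open Finset

variable {n m : ℕ}

/-- Amplitude of the bit of level `l` at scale `j`. -/
noncomputable def amp (q β γ K : ℝ) (j l : ℤ) : ℝ :=
  √(γ * ((2 : ℝ) ^ l / (2 : ℝ) ^ j) ^ q / K ^ (q - β))

/-- Bias of the bit of coordinate `t.1`, level `t.2.1` and phase `t.2.2` at scale `j`. -/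
noncomputable def bias (q β γ K : ℝ) (y : Fin n → Fin m → ℝ) {Q : ℕ}
    (ω : Equiv.Perm (Fin n) × Fin Q) (j : ℤ) (t : Fin m × ℤ × Bool) (x : Fin n) : ℝ :=
  amp q β γ K j t.2.1 *
    feat t.2.2 ((y x t.1 - y (centre (dd q y) ω (K * (2 : ℝ) ^ j) x) t.1) / (2 : ℝ) ^ t.2.1)

/-- The bits of one scale. -/
noncomputable def blockTags (m : ℕ) (LS : Finset ℤ) (j : ℤ) : Finset (Fin m × ℤ × Bool) :=
  Finset.univ ×ˢ ((LS.filter fun l => l ≤ j) ×ˢ Finset.univ)

/-- The bits of one scale, as prediction steps. -/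
noncomputable def block (q β γ K : ℝ) (y : Fin n → Fin m → ℝ) {Q : ℕ}
    (ω : Equiv.Perm (Fin n) × Fin Q) (LS : Finset ℤ) (j : ℤ) :
    List (Fin m × (Fin n → ℝ)) :=
  (blockTags m LS j).toList.map fun t => (t.1, bias q β γ K y ω j t)

/-- All bits of the scales `top, top - 1, …, top - N + 1`, coarse to fine. -/
noncomputable def steps (q β γ K : ℝ) (y : Fin n → Fin m → ℝ) {Q : ℕ}
    (ω : Equiv.Perm (Fin n) × Fin Q) (LS : Finset ℤ) (top : ℤ) (N : ℕ) :
    List (Fin m × (Fin n → ℝ)) :=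
  (List.range N).flatMap fun i : ℕ => block q β γ K y ω LS (top - i)

variable {q β γ K : ℝ} {y : Fin n → Fin m → ℝ} {Q : ℕ} {ω : Equiv.Perm (Fin n) × Fin Q}
  {LS : Finset ℤ}

theorem amp_sq (hγ : 0 ≤ γ) (hK : 0 ≤ K) (j l : ℤ) :
    amp q β γ K j l ^ 2 = γ * ((2 : ℝ) ^ l / (2 : ℝ) ^ j) ^ q / K ^ (q - β) :=
  Real.sq_sqrt (by positivity)

theorem abs_bias_le (hγ : γ ≤ 1 / 4) (hK : 1 ≤ K) (hq : 0 ≤ q) (hβ : β ≤ q) {j : ℤ}
    {t : Fin m × ℤ × Bool} (ht : t ∈ blockTags m LS j) (x : Fin n) :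
    |bias q β γ K y ω j t x| ≤ 1 / 2 := by
  simp only [blockTags, Finset.mem_product, Finset.mem_filter, Finset.mem_univ, true_and,
    and_true] at ht
  have hle : γ * ((2 : ℝ) ^ t.2.1 / (2 : ℝ) ^ j) ^ q / K ^ (q - β) ≤ 1 / 4 := by
    rw [div_le_iff₀ (by positivity)]
    calc γ * ((2 : ℝ) ^ t.2.1 / (2 : ℝ) ^ j) ^ q ≤ 1 / 4 * 1 := by
          refine mul_le_mul hγ (Real.rpow_le_one (by positivity) ?_ hq) (by positivity) (by norm_num)
          exact div_le_one_of_le₀ (zpow_le_zpow_right₀ one_le_two ht.2) (by positivity)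
      _ ≤ _ := by
          gcongr
          exact Real.one_le_rpow hK (by linarith)
  rw [bias, abs_mul, ← mul_one (1 / 2 : ℝ)]
  refine mul_le_mul ?_ (abs_feat_le _ _) (abs_nonneg _) (by norm_num)
  rw [amp, abs_of_nonneg (Real.sqrt_nonneg _), Real.sqrt_le_left (by norm_num)]
  linarith

theorem biased_steps (hγ : γ ≤ 1 / 4) (hK : 1 ≤ K) (hq : 0 ≤ q) (hβ : β ≤ q)
    (top : ℤ) (N : ℕ) : Biased (steps q β γ K y ω LS top N) := by
  intro e he x
  simp only [steps, List.mem_flatMap, block, List.mem_map, Finset.mem_toList] at he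
  obtain ⟨i, _, t, ht, rfl⟩ := he
  exact abs_bias_le hγ hK hq hβ ht x

theorem steps_add (top : ℤ) (a b : ℕ) :
    ∃ L₂, steps q β γ K y ω LS top (a + b) = steps q β γ K y ω LS top a ++ L₂ := by
  refine ⟨((List.range b).map (a + ·)).flatMap fun i : ℕ => block q β γ K y ω LS (top - i), ?_⟩
  rw [steps, List.range_add, List.flatMap_append]
  rfl

theorem gapAll_steps (top : ℤ) (a : ℕ) (x x' : Fin n) :
    gapAll (steps q β γ K y ω LS top a) x x' = ∑ i ∈ Finset.range a, ∑ t ∈ blockTags m LS (top - i),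
      (bias q β γ K y ω (top - i) t x - bias q β γ K y ω (top - i) t x') ^ 2 := by
  induction a with
  | zero => simp [steps, gapAll]
  | succ a ih =>
    rw [Finset.sum_range_succ, ← ih]
    simp [steps, gapAll, block, List.range_succ, Finset.sum_map_toList, List.map_map,
      Function.comp_def]

theorem gapSum_steps (top : ℤ) (a : ℕ) (x x' : Fin n) (k : Fin m) :
    gapSum (steps q β γ K y ω LS top a) x x' k = ∑ i ∈ Finset.range a, ∑ t ∈ blockTags m LS (top - i),
      if t.1 = k then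
        (bias q β γ K y ω (top - i) t x - bias q β γ K y ω (top - i) t x') ^ 2 else 0 := by
  induction a with
  | zero => simp [steps, gapSum]
  | succ a ih =>
    rw [Finset.sum_range_succ, ← ih]
    simp [steps, gapSum, block, List.range_succ, Finset.sum_map_toList, List.map_map,
      Function.comp_def]

/-- The dyadic levels relevant to one coordinate form a geometric sum. -/
theorem sum_levels_le (hβ0 : 0 ≤ β) (hβ2 : β ≤ 2) (hβq : β < q) (S : Finset ℤ) (b : Bool)
    (a c : ℝ) :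
    ∑ l ∈ S, ((2 : ℝ) ^ l) ^ q * (feat b (a / (2 : ℝ) ^ l) - feat b (c / (2 : ℝ) ^ l)) ^ 2 ≤
      25 * |a - c| ^ β * ((4 * (|a| + |c|)) ^ (q - β) / (1 - ((2 : ℝ) ^ (q - β))⁻¹)) := by
  classical
  set M := |a| + |c| with hM
  set S' := S.filter fun l : ℤ => (2 : ℝ) ^ l < 4 * M with hS'
  have hzero : ∀ l ∈ S, l ∉ S' →
      ((2 : ℝ) ^ l) ^ q * (feat b (a / (2 : ℝ) ^ l) - feat b (c / (2 : ℝ) ^ l)) ^ 2 = 0 := by
    intro l hl hnot
    have h4 : 4 * M ≤ (2 : ℝ) ^ l := not_lt.1 fun h => hnot (Finset.mem_filter.2 ⟨hl, h⟩)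
    have hp : (0 : ℝ) < (2 : ℝ) ^ l := by positivity
    have key : ∀ u : ℝ, |u| ≤ M → feat b (u / (2 : ℝ) ^ l) = 0 := fun u hu => by
      refine feat_eq_zero b ?_
      rw [abs_div, abs_of_pos hp, div_le_iff₀ hp]
      linarith
    rw [key a (by linarith [abs_nonneg c]), key c (by linarith [abs_nonneg a])]
    simp
  rw [← Finset.sum_subset (Finset.filter_subset _ _) hzero]
  have hr : 1 < (2 : ℝ) ^ (q - β) := Real.one_lt_rpow one_lt_two (by linarith)
  have hden : 0 < 1 - ((2 : ℝ) ^ (q - β))⁻¹ := by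
    linarith [inv_lt_one_of_one_lt₀ hr]
  calc ∑ l ∈ S', ((2 : ℝ) ^ l) ^ q * (feat b (a / (2 : ℝ) ^ l) - feat b (c / (2 : ℝ) ^ l)) ^ 2
      ≤ ∑ l ∈ S', 25 * |a - c| ^ β * ((2 : ℝ) ^ (q - β)) ^ l := Finset.sum_le_sum fun l _ => by
        have hp : (0 : ℝ) < (2 : ℝ) ^ l := by positivity
        refine (mul_le_mul_of_nonneg_left (sq_feat_sub_le b hβ0 hβ2 _ _) (by positivity)).trans
          (le_of_eq ?_)
        rw [← sub_div, abs_div, abs_of_pos hp, Real.div_rpow (abs_nonneg _) hp.le,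
          ← Real.rpow_intCast ((2 : ℝ) ^ (q - β)) l, ← Real.rpow_mul two_pos.le, mul_comm (q - β),
          Real.rpow_mul two_pos.le, Real.rpow_intCast, Real.rpow_sub hp]
        field_simp
    _ = 25 * |a - c| ^ β * ∑ l ∈ S', ((2 : ℝ) ^ (q - β)) ^ l := (Finset.mul_sum _ _ _).symm
    _ ≤ _ := by
        refine mul_le_mul_of_nonneg_left ?_ (by positivity)
        rcases S'.eq_empty_or_nonempty with he | ⟨l0, hl0⟩
        · rw [he, Finset.sum_empty]; positivity
        have hM0 : 0 < 4 * M := lt_trans (by positivity) (Finset.mem_filter.1 hl0).2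
        refine (sum_zpow_le_of_le hr S' (Int.log 2 (4 * M)) fun l hl => ?_).trans ?_
        · have h1 : (2 : ℝ) ^ l < (2 : ℝ) ^ (Int.log 2 (4 * M) + 1) :=
            (Finset.mem_filter.1 hl).2.trans
              (by exact_mod_cast Int.lt_zpow_succ_log_self (R := ℝ) (b := 2) one_lt_two (4 * M))
          have := (zpow_lt_zpow_iff_right₀ one_lt_two).1 h1
          omega
        · gcongr
          rw [← Real.rpow_intCast, ← Real.rpow_mul two_pos.le, mul_comm, Real.rpow_mul two_pos.le,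
            Real.rpow_intCast]
          exact Real.rpow_le_rpow (by positivity)
            (by exact_mod_cast Int.zpow_log_le_self (R := ℝ) (b := 2) one_lt_two hM0) (by linarith)

/-- The constant of one scale. -/
noncomputable def scaleConst (q β : ℝ) : ℝ :=
  150 * (4 : ℝ) ^ (q - β) * (4 : ℝ) ^ (q - β) / (1 - ((2 : ℝ) ^ (q - β))⁻¹)

theorem scaleConst_pos (hβq : β < q) : 0 < scaleConst q β := by
  have : ((2 : ℝ) ^ (q - β))⁻¹ < 1 :=
    inv_lt_one_of_one_lt₀ (Real.one_lt_rpow one_lt_two (by linarith))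
  unfold scaleConst
  exact div_pos (by positivity) (by linarith)

/-- At a common centre one scale separates two points by at most `s / 2 ^ j`. -/
theorem sum_block_le (hβ1 : 1 ≤ β) (hβ2 : β ≤ 2) (hβq : β < q) (hγ0 : 0 ≤ γ)
    (hγ : γ * scaleConst q β ≤ 1) (hK : 1 ≤ K) {x x' : Fin n} (hs : 0 < dd q y x x') {j : ℤ}
    (hsj : dd q y x x' ≤ (2 : ℝ) ^ j)
    (hc : centre (dd q y) ω (K * (2 : ℝ) ^ j) x = centre (dd q y) ω (K * (2 : ℝ) ^ j) x') :
    ∑ t ∈ blockTags m LS j, (bias q β γ K y ω j t x - bias q β γ K y ω j t x') ^ 2 ≤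
      dd q y x x' / (2 : ℝ) ^ j := by
  set s := dd q y x x' with hsdef
  set T := (2 : ℝ) ^ j with hT
  have hT0 : 0 < T := by positivity
  set c := centre (dd q y) ω (K * T) x with hcdef
  set R := 4 * K * T with hR
  have hR0 : 0 < R := by positivity
  have hq0 : 0 < q := by linarith
  have hK0 : 0 < K := by linarith
  set D := 1 - ((2 : ℝ) ^ (q - β))⁻¹ with hD
  have hD0 : 0 < D := by
    linarith [inv_lt_one_of_one_lt₀ (Real.one_lt_rpow one_lt_two (sub_pos.2 hβq))]
  set a : Fin m → ℝ := fun k => y x k - y c k with ha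
  set b : Fin m → ℝ := fun k => y x' k - y c k with hb
  set M : Fin m → ℝ := fun k => |a k| + |b k| with hM
  have hfar : ∀ z, centre (dd q y) ω (K * T) z = c → ∑ k, |y z k - y c k| ^ q ≤ (2 * (K * T)) ^ q :=
    fun z hz => by
      have h := centre_dist_le (d := dd q y) (dd_self hq0) ω (r := K * T) (by positivity) z
      rw [hz, dd_comm] at h
      calc ∑ k, |y z k - y c k| ^ q = dd q y z c ^ q := (dd_rpow hq0 z c).symm
        _ ≤ _ := Real.rpow_le_rpow (dd_nonneg _ _) h hq0.le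
  have hMq : ∑ k, (M k / R) ^ q ≤ 2 := by
    calc ∑ k, (M k / R) ^ q ≤ ∑ k, 2 ^ q * (|a k| ^ q + |b k| ^ q) / R ^ q :=
          Finset.sum_le_sum fun k _ => by
            rw [Real.div_rpow (by positivity) hR0.le]
            exact div_le_div_of_nonneg_right
              (add_rpow_le_two_rpow_mul (abs_nonneg _) (abs_nonneg _) hq0.le) (by positivity)
      _ = 2 ^ q * ((∑ k, |a k| ^ q) + ∑ k, |b k| ^ q) / R ^ q := by
          rw [← Finset.sum_div, ← Finset.mul_sum, Finset.sum_add_distrib]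
      _ ≤ 2 ^ q * ((2 * (K * T)) ^ q + (2 * (K * T)) ^ q) / R ^ q := by
          gcongr
          · exact hfar x rfl
          · exact hfar x' hc.symm
      _ = 2 := by
          rw [hR, show 4 * K * T = 2 * (2 * (K * T)) by ring,
            Real.mul_rpow (x := 2) (y := 2 * (K * T)) two_pos.le (by positivity)]
          field_simp; ring
  have hvq : ∑ k, (|a k - b k| / s) ^ q = 1 := by
    simp only [Real.div_rpow (abs_nonneg _) hs.le, ← Finset.sum_div, ha, hb, sub_sub_sub_cancel_right]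
    rw [div_eq_one_iff_eq (by positivity), hsdef, dd_rpow hq0]
    rfl
  -- one coordinate
  have hk : ∀ k : Fin m, ∑ l ∈ LS.filter (fun l => l ≤ j), ∑ e : Bool,
      (bias q β γ K y ω j (k, l, e) x - bias q β γ K y ω j (k, l, e) x') ^ 2 ≤
      γ * (scaleConst q β / 3) * (s / T) ^ β * ((|a k - b k| / s) ^ q + (M k / R) ^ q) := by
    intro k
    have hl : ∀ l e, (bias q β γ K y ω j (k, l, e) x - bias q β γ K y ω j (k, l, e) x') ^ 2 =
        γ / (T ^ q * K ^ (q - β)) * (((2 : ℝ) ^ l) ^ q *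
          (feat e (a k / (2 : ℝ) ^ l) - feat e (b k / (2 : ℝ) ^ l)) ^ 2) := fun l e => by
      simp only [bias, ← mul_sub, mul_pow, amp_sq hγ0 hK0.le, ← hT, ← hcdef, ← hc, ha, hb]
      rw [Real.div_rpow (by positivity) hT0.le]
      field_simp
    simp only [hl]
    rw [Finset.sum_comm]
    simp only [← Finset.mul_sum]
    have hsum : ∑ e : Bool, ∑ l ∈ LS.filter (fun l => l ≤ j), ((2 : ℝ) ^ l) ^ q *
        (feat e (a k / (2 : ℝ) ^ l) - feat e (b k / (2 : ℝ) ^ l)) ^ 2 ≤
        50 * |a k - b k| ^ β * ((4 * M k) ^ (q - β) / D) := by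
      refine (Finset.sum_le_sum fun e _ =>
        sum_levels_le (by linarith) hβ2 hβq _ e (a k) (b k)).trans_eq ?_
      simp [hM, hD]; ring
    refine (mul_le_mul_of_nonneg_left hsum (by positivity)).trans ?_
    have hyoung : (|a k - b k| / s) ^ β * (M k / R) ^ (q - β) ≤
        (|a k - b k| / s) ^ q + (M k / R) ^ q := by
      set u := |a k - b k| / s
      set w := M k / R
      have hu : 0 ≤ u := by positivity
      have hw : 0 ≤ w := by positivity
      have := Real.rpow_nonneg hu q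
      have := Real.rpow_nonneg hw q
      rcases le_total u w with h | h
      · calc u ^ β * w ^ (q - β) ≤ w ^ β * w ^ (q - β) := by gcongr
          _ = w ^ q := by
              rw [← Real.rpow_add_of_nonneg hw (by linarith) (by linarith), add_sub_cancel]
          _ ≤ _ := by linarith
      · calc u ^ β * w ^ (q - β) ≤ u ^ β * u ^ (q - β) := by
              gcongr
          _ = u ^ q := by
              rw [← Real.rpow_add_of_nonneg hu (by linarith) (by linarith), add_sub_cancel]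
          _ ≤ _ := by linarith
    refine le_trans (le_of_eq ?_) (mul_le_mul_of_nonneg_left hyoung
      (by have := scaleConst_pos hβq; positivity))
    rw [scaleConst, ← hD, Real.mul_rpow (by norm_num : (0:ℝ) ≤ 4) (by positivity),
      Real.div_rpow (abs_nonneg _) hs.le, Real.div_rpow (by positivity) hR0.le,
      Real.div_rpow hs.le hT0.le, hR, Real.mul_rpow (by positivity : (0:ℝ) ≤ 4 * K) hT0.le,
      Real.mul_rpow (by norm_num : (0:ℝ) ≤ 4) hK0.le]
    rw [Real.rpow_sub hT0 q β]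
    field_simp
    ring
  calc ∑ t ∈ blockTags m LS j, (bias q β γ K y ω j t x - bias q β γ K y ω j t x') ^ 2
      = ∑ k, ∑ l ∈ LS.filter (fun l => l ≤ j), ∑ e : Bool,
        (bias q β γ K y ω j (k, l, e) x - bias q β γ K y ω j (k, l, e) x') ^ 2 := by
        rw [blockTags, Finset.sum_product]
        simp only [Finset.sum_product]
    _ ≤ ∑ k, γ * (scaleConst q β / 3) * (s / T) ^ β * ((|a k - b k| / s) ^ q + (M k / R) ^ q) :=
        Finset.sum_le_sum fun k _ => hk k
    _ ≤ γ * (scaleConst q β / 3) * (s / T) ^ β * 3 := by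
        rw [← Finset.mul_sum, Finset.sum_add_distrib, hvq]
        have := scaleConst_pos hβq
        gcongr
        linarith
    _ = γ * scaleConst q β * (s / T) ^ β := by ring
    _ ≤ 1 * (s / T) ^ (1 : ℝ) := by
        refine mul_le_mul hγ ?_ (by positivity) zero_le_one
        exact Real.rpow_le_rpow_of_exponent_ge (div_pos hs hT0) (div_le_one_of_le₀ hsj hT0.le) hβ1
    _ = _ := by rw [one_mul, Real.rpow_one]

theorem sum_inv_pow_le (top : ℤ) (a : ℕ) :
    ∑ i ∈ Finset.range a, ((2 : ℝ) ^ (top - i))⁻¹ ≤ 2 / (2 : ℝ) ^ (top + 1 - a) := by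
  induction a with
  | zero => simp; positivity
  | succ a ih =>
    rw [Finset.sum_range_succ,
      show top + 1 - ((a + 1 : ℕ) : ℤ) = top - a by push_cast; ring]
    rw [show top + 1 - (a : ℤ) = (top - a) + 1 by ring, zpow_add₀ two_ne_zero, zpow_one] at ih
    have e : 2 / ((2 : ℝ) ^ (top - (a : ℤ)) * 2) = ((2 : ℝ) ^ (top - (a : ℤ)))⁻¹ := by field_simp
    rw [e] at ih
    rw [div_eq_mul_inv]
    linarith

/-- At common coarse centres, both points are predicted badly at the level of their difference. -/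
theorem pair_good (hβ1 : 1 ≤ β) (hβ2 : β ≤ 2) (hβq : β < q) (hγ0 : 0 ≤ γ) (hγ4 : γ ≤ 1 / 4)
    (hγ : γ * scaleConst q β ≤ 1) (hK : 1 ≤ K) {x x' : Fin n} {k : Fin m}
    (hv : y x k ≠ y x' k) {j0 : ℤ} (hj0 : 32 * dd q y x x' < (2 : ℝ) ^ j0)
    (hj0' : (2 : ℝ) ^ j0 ≤ 64 * dd q y x x')
    (hLS : Int.log 2 |y x k - y x' k| ∈ LS) {top : ℤ} {N a : ℕ} (ha0 : 0 < a) (haN : a ≤ N)
    (ha : top + 1 - (a : ℤ) = j0)
    (hc : ∀ i < a, centre (dd q y) ω (K * (2 : ℝ) ^ (top - (i : ℤ))) x =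
      centre (dd q y) ω (K * (2 : ℝ) ^ (top - (i : ℤ))) x') :
    5 / 36 * (γ * (|y x k - y x' k| / (128 * dd q y x x')) ^ q / K ^ (q - β)) ≤
      sqErr (steps q β γ K y ω LS top N) (fun _ => 1) x k +
        sqErr (steps q β γ K y ω LS top N) (fun _ => 1) x' k := by
  have hq0 : 0 < q := by linarith
  set s := dd q y x x' with hsdef
  set v := |y x k - y x' k| with hvdef
  have hv0 : 0 < v := abs_pos.2 (sub_ne_zero.2 hv)
  have hvs : v ≤ s := abs_sub_le_dd hq0 x x' k
  have hs0 : 0 < s := hv0.trans_le hvs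
  have hL : Biased (steps q β γ K y ω LS top N) := biased_steps hγ4 hK hq0.le hβq.le top N
  obtain ⟨L₂, hL₂⟩ := steps_add (q := q) (β := β) (γ := γ) (K := K) (y := y) (ω := ω) (LS := LS)
    top a (N - a)
  rw [Nat.add_sub_cancel' haN] at hL₂
  rw [hL₂] at hL ⊢
  have hpair := sqErr_pair_ge hL (fun _ => 1) zero_le_one zero_le_one x x' k
  rw [Real.sqrt_one] at hpair
  have hA : gapAll (steps q β γ K y ω LS top a) x x' ≤ 1 := by
    rw [gapAll_steps]
    calc _ ≤ ∑ i ∈ Finset.range a, s / (2 : ℝ) ^ (top - (i : ℤ)) := Finset.sum_le_sum fun i hi => by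
          have hi' := Finset.mem_range.1 hi
          refine sum_block_le hβ1 hβ2 hβq hγ0 hγ hK hs0 ?_ (hc i hi')
          have : (2 : ℝ) ^ j0 ≤ (2 : ℝ) ^ (top - (i : ℤ)) :=
            zpow_le_zpow_right₀ one_le_two (by omega)
          linarith
      _ = s * ∑ i ∈ Finset.range a, ((2 : ℝ) ^ (top - (i : ℤ)))⁻¹ := by
          simp only [div_eq_mul_inv, Finset.mul_sum]
      _ ≤ s * (2 / (2 : ℝ) ^ (top + 1 - (a : ℤ))) :=
          mul_le_mul_of_nonneg_left (sum_inv_pow_le top a) hs0.le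
      _ ≤ 1 := by rw [ha, mul_div_assoc', div_le_one (by positivity)]; linarith
  have hT := gapSum_nonneg (steps q β γ K y ω LS top a) x x' k
  have hlow : gapSum (steps q β γ K y ω LS top a) x x' k / 4 ≤
      sqErr (steps q β γ K y ω LS top a ++ L₂) (fun _ => 1) x k +
        sqErr (steps q β γ K y ω LS top a ++ L₂) (fun _ => 1) x' k := by
    have := mul_nonneg hT (show (0 : ℝ) ≤ 1 - gapAll (steps q β γ K y ω LS top a) x x' by linarith)
    linarith
  refine le_trans ?_ hlow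
  rw [gapSum_steps]
  set l := Int.log 2 v with hl
  have hlv : (2 : ℝ) ^ l ≤ v := by
    exact_mod_cast Int.zpow_log_le_self (R := ℝ) (b := 2) one_lt_two hv0
  have hvl : v < (2 : ℝ) ^ (l + 1) := by
    exact_mod_cast Int.lt_zpow_succ_log_self (R := ℝ) (b := 2) one_lt_two v
  rw [zpow_add₀ two_ne_zero, zpow_one] at hvl
  have hlj : l ≤ j0 := (zpow_le_zpow_iff_right₀ (one_lt_two (α := ℝ))).1 (by linarith)
  have hia : top - ((a - 1 : ℕ) : ℤ) = j0 := by omega
  have hl0 : (0 : ℝ) < (2 : ℝ) ^ l := by positivity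
  set c := centre (dd q y) ω (K * (2 : ℝ) ^ j0) x with hcdef
  have hc' : centre (dd q y) ω (K * (2 : ℝ) ^ j0) x' = c := by
    rw [hcdef, ← hia]; exact (hc (a - 1) (by omega)).symm
  have hfeat : 5 / 9 ≤ (feat true ((y x k - y c k) / (2 : ℝ) ^ l) -
      feat true ((y x' k - y c k) / (2 : ℝ) ^ l)) ^ 2 +
      (feat false ((y x k - y c k) / (2 : ℝ) ^ l) -
        feat false ((y x' k - y c k) / (2 : ℝ) ^ l)) ^ 2 := by
    refine sq_feat_sub_ge ?_ ?_ <;>
      rw [← sub_div, sub_sub_sub_cancel_right, abs_div, abs_of_pos hl0, ← hvdef]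
    · rw [le_div_iff₀ hl0]; linarith
    · rw [div_le_iff₀ hl0]; linarith
  have hmem : ∀ e : Bool, (k, l, e) ∈ blockTags m LS j0 := fun e => by
    simp only [blockTags, Finset.mem_product, Finset.mem_filter, Finset.mem_univ, true_and, and_true]
    exact ⟨hLS, hlj⟩
  have hamp : γ * (v / (128 * s)) ^ q / K ^ (q - β) ≤ amp q β γ K j0 l ^ 2 := by
    rw [amp_sq hγ0 (by linarith)]
    refine div_le_div_of_nonneg_right (mul_le_mul_of_nonneg_left
      (Real.rpow_le_rpow (by positivity) ?_ hq0.le) hγ0) (by positivity)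
    rw [div_le_div_iff₀ (by positivity) (by positivity)]
    nlinarith
  have hterms : amp q β γ K j0 l ^ 2 * (5 / 9) ≤ ∑ e : Bool,
      (bias q β γ K y ω j0 (k, l, e) x - bias q β γ K y ω j0 (k, l, e) x') ^ 2 := by
    simp only [Fintype.sum_bool, bias, ← mul_sub, mul_pow, hc', ← hcdef, ← mul_add]
    exact mul_le_mul_of_nonneg_left hfeat (sq_nonneg _)
  have hsub : ∑ e : Bool, (bias q β γ K y ω j0 (k, l, e) x - bias q β γ K y ω j0 (k, l, e) x') ^ 2 ≤
      ∑ t ∈ blockTags m LS j0, if t.1 = k then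
        (bias q β γ K y ω j0 t x - bias q β γ K y ω j0 t x') ^ 2 else 0 := by
    classical
    refine le_trans (le_of_eq ?_) (Finset.sum_le_sum_of_subset_of_nonneg
      (s := (Finset.univ : Finset Bool).image fun e => (k, l, e)) (fun t ht => ?_)
      fun t _ _ => by split_ifs <;> positivity)
    · rw [Finset.sum_image fun a _ b _ h => by simpa using h]
      simp
    · obtain ⟨e, _, rfl⟩ := Finset.mem_image.1 ht
      exact hmem e
  have hone : ∑ t ∈ blockTags m LS j0, (if t.1 = k then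
        (bias q β γ K y ω j0 t x - bias q β γ K y ω j0 t x') ^ 2 else 0) ≤
      ∑ i ∈ Finset.range a, ∑ t ∈ blockTags m LS (top - i), if t.1 = k then
        (bias q β γ K y ω (top - i) t x - bias q β γ K y ω (top - i) t x') ^ 2 else 0 := by
    refine le_trans (le_of_eq ?_) (Finset.single_le_sum (fun i _ => Finset.sum_nonneg fun t _ => by
      split_ifs <;> positivity) (Finset.mem_range.2 (show a - 1 < a by omega)))
    rw [hia]
  linarith

/-- With a fine enough grid of radii two points share all coarse centres with probability `3/4`. -/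
theorem avg_bad_le {q K : ℝ} (hq1 : 1 ≤ q) (hlogn : 0 ≤ Real.log n) (hKn : Real.log n + 1 = K)
    {y : Fin n → Fin m → ℝ} {Q : ℕ} {x x' : Fin n} {j0 top : ℤ} {a N : ℕ}
    (hj0 : 32 * dd q y x x' < (2 : ℝ) ^ j0) (ha : top + 1 - (a : ℤ) = j0) (haN : a ≤ N)
    (hQ0 : 0 < Q) (hQ : 16 * (N : ℝ) * K ≤ Q) :
    (Fintype.card (Equiv.Perm (Fin n) × Fin Q) : ℝ)⁻¹ * ∑ ω : Equiv.Perm (Fin n) × Fin Q,
      ∑ i ∈ Finset.range a, (if centre (dd q y) ω (K * (2 : ℝ) ^ (top - (i : ℤ))) x ≠
        centre (dd q y) ω (K * (2 : ℝ) ^ (top - (i : ℤ))) x' then (1 : ℝ) else 0) ≤ 1 / 4 := by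
  have hq0 : 0 < q := by linarith
  have hK : 1 ≤ K := by linarith
  have hK0 : 0 < K := by linarith
  set s := dd q y x x' with hsdef
  have hs0 : 0 ≤ s := dd_nonneg _ _
  rw [Finset.sum_comm, Finset.mul_sum]
  calc _ ≤ ∑ i ∈ Finset.range a,
        2 * (s / (K * (2 : ℝ) ^ (top - (i : ℤ))) + 1 / Q) * Real.log n :=
      Finset.sum_le_sum fun i hi => by
        have hi' := Finset.mem_range.1 hi
        have hp : (2 : ℝ) ^ j0 ≤ (2 : ℝ) ^ (top - (i : ℤ)) :=
          zpow_le_zpow_right₀ one_le_two (by omega)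
        have h := avg_centre_ne_le (d := dd q y) (dd_self hq0) dd_comm (dd_triangle hq1)
          dd_nonneg (Q := Q) hQ0 (r := K * (2 : ℝ) ^ (top - (i : ℤ))) (by positivity)
          (x := x) (y := x') (by nlinarith)
        rwa [Fintype.card_fin] at h
    _ = 2 * Real.log n * (s / K * ∑ i ∈ Finset.range a, ((2 : ℝ) ^ (top - (i : ℤ)))⁻¹ +
        (a : ℝ) / Q) := by
      simp only [Finset.mul_sum, mul_add, add_mul, Finset.sum_add_distrib, Finset.sum_const,
        Finset.card_range, nsmul_eq_mul]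
      congr 1
      · exact Finset.sum_congr rfl fun i _ => by field_simp
      · ring
    _ ≤ 2 * K * (s / K * (2 / (2 : ℝ) ^ j0) + (N : ℝ) / Q) := by
      rw [← ha]
      gcongr
      · linarith
      · exact sum_inv_pow_le _ _
    _ = 4 * s / (2 : ℝ) ^ j0 + 2 * (N * K) / Q := by field_simp; ring
    _ ≤ 1 / 8 + 1 / 8 := by
      refine add_le_add ?_ ?_
      · rw [div_le_iff₀ (by positivity)]; linarith
      · rw [div_le_iff₀ (by positivity)]
        linarith
    _ = _ := by norm_num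

theorem root_add_le {q a b : ℝ} (hq : 1 ≤ q) (ha : 0 ≤ a) (hb : 0 ≤ b) :
    (a + b) ^ q⁻¹ ≤ a ^ q⁻¹ + b ^ q⁻¹ := by
  have hq0 : 0 < q := by linarith
  have h := add_rpow_le (Real.rpow_nonneg ha q⁻¹) (Real.rpow_nonneg hb q⁻¹) hq
  rw [Real.rpow_inv_rpow ha hq0.ne', Real.rpow_inv_rpow hb hq0.ne'] at h
  refine (Real.rpow_le_rpow (by linarith) h (inv_nonneg.2 hq0.le)).trans (le_of_eq ?_)
  exact Real.rpow_rpow_inv (by positivity) hq0.ne'

/-- Step A. -/
theorem intensitySpec (hβ1 : 1 < β) (hβ2 : β ≤ 2) (hβq : β < q) : IntensitySpec q β := by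
  classical
  have hq1 : 1 ≤ q := by linarith
  have hq0 : 0 < q := by linarith
  have hcs := scaleConst_pos hβq
  set γ : ℝ := min (1 / 4) (1 / scaleConst q β) with hγdef
  have hγ0 : 0 < γ := lt_min (by norm_num) (by positivity)
  have hγ4 : γ ≤ 1 / 4 := min_le_left _ _
  have hγs : γ * scaleConst q β ≤ 1 := by
    rw [← le_div_iff₀ hcs]; exact min_le_right _ _
  set Ct : ℝ := 48 / 5 * (128 : ℝ) ^ q / γ with hCt
  refine ⟨8 * Ct, by positivity, fun n m y => ?_⟩
  set K := Real.log n + 1 with hKdef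
  have hlogn : 0 ≤ Real.log n := Real.log_natCast_nonneg n
  have hK : 1 ≤ K := by linarith
  have hK0 : 0 < K := by linarith
  set J : ℕ := (Finset.univ.sup fun p : Fin n × Fin n =>
    (Int.log 2 (32 * dd q y p.1 p.2)).natAbs) + 2 with hJ
  set LS : Finset ℤ := (Finset.univ : Finset (Fin n × Fin n × Fin m)).image
    fun p => Int.log 2 |y p.1 p.2.2 - y p.2.1 p.2.2| with hLS
  set N : ℕ := 2 * J + 1 with hN
  set Q : ℕ := ⌈16 * N * K⌉₊ + 1 with hQdef
  set W : ℝ := (Fintype.card (Equiv.Perm (Fin n) × Fin Q) : ℝ)⁻¹ with hW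
  have hW0 : 0 ≤ W := by positivity
  have hW1 : W * ∑ _ω : Equiv.Perm (Fin n) × Fin Q, (1 : ℝ) = 1 := by
    rw [Finset.sum_const, nsmul_one, Finset.card_univ, hW, inv_mul_cancel₀]
    have : Nonempty (Fin Q) := ⟨⟨0, Nat.succ_pos _⟩⟩
    exact_mod_cast Fintype.card_ne_zero
  set S : Equiv.Perm (Fin n) × Fin Q → List (Fin m × (Fin n → ℝ)) :=
    fun ω => steps q β γ K y ω LS (J : ℤ) N with hS
  have hbias : ∀ ω, Biased (S ω) := fun ω => biased_steps hγ4 hK hq0.le hβq.le _ _
  set G : Fin m → Fin n → ℝ := fun k x => W * ∑ ω, sqErr (S ω) (fun _ => 1) x k with hG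
  have hG0 : ∀ k x, 0 ≤ G k x := fun k x =>
    mul_nonneg hW0 (Finset.sum_nonneg fun ω _ => sqErr_nonneg (hbias ω) _ _ _)
  refine ⟨fun k x => (Ct * K ^ (q - β) * G k x) ^ q⁻¹, fun k x => by
    have := hG0 k x; positivity, fun x x' k => ?_, fun x => ?_⟩
  · set s := dd q y x x' with hsdef
    set v := |y x k - y x' k| with hvdef
    have hτ0 : ∀ z, 0 ≤ Ct * K ^ (q - β) * G k z := fun z => by
      have := hG0 k z; positivity
    by_cases hv : y x k = y x' k
    · have : v = 0 := by rw [hvdef, hv, sub_self, abs_zero]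
      rw [this]
      exact mul_nonneg (add_nonneg (Real.rpow_nonneg (hτ0 x) _) (Real.rpow_nonneg (hτ0 x') _))
        (dd_nonneg _ _)
    have hv0 : 0 < v := abs_pos.2 (sub_ne_zero.2 hv)
    have hs0 : 0 < s := hv0.trans_le (abs_sub_le_dd hq0 x x' k)
    set j0 := Int.log 2 (32 * s) + 1 with hj0def
    have hj0 : 32 * s < (2 : ℝ) ^ j0 := by
      exact_mod_cast Int.lt_zpow_succ_log_self (R := ℝ) (b := 2) one_lt_two (32 * s)
    have hj0' : (2 : ℝ) ^ j0 ≤ 64 * s := by
      have h : ((2 : ℕ) : ℝ) ^ Int.log 2 (32 * s) ≤ 32 * s :=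
        Int.zpow_log_le_self one_lt_two (by positivity)
      push_cast at h
      rw [hj0def, zpow_add₀ two_ne_zero, zpow_one]
      linarith
    have hJb : (Int.log 2 (32 * s)).natAbs + 2 ≤ J := by
      have := Finset.le_sup (f := fun p : Fin n × Fin n =>
        (Int.log 2 (32 * dd q y p.1 p.2)).natAbs) (Finset.mem_univ (x, x'))
      simp only [← hsdef] at this
      omega
    set a : ℕ := ((J : ℤ) - j0).toNat + 1 with hadef
    have ha : (J : ℤ) + 1 - (a : ℤ) = j0 := by omega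
    have haN : a ≤ N := by omega
    have hLSm : Int.log 2 v ∈ LS := Finset.mem_image.2 ⟨(x, x', k), Finset.mem_univ _, rfl⟩
    set bad : Equiv.Perm (Fin n) × Fin Q → ℝ := fun ω => ∑ i ∈ Finset.range a,
      if centre (dd q y) ω (K * (2 : ℝ) ^ ((J : ℤ) - (i : ℤ))) x ≠
        centre (dd q y) ω (K * (2 : ℝ) ^ ((J : ℤ) - (i : ℤ))) x' then (1 : ℝ) else 0 with hbad
    have hbadle : W * ∑ ω, bad ω ≤ 1 / 4 :=
      avg_bad_le hq1 hlogn hKdef.symm hj0 ha haN (Nat.succ_pos _) (by
        rw [hQdef]; push_cast; linarith [Nat.le_ceil (16 * (N : ℝ) * K)])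
    set X := 5 / 36 * (γ * (v / (128 * s)) ^ q / K ^ (q - β)) with hX
    have hX0 : 0 ≤ X := by positivity
    have hgood : ∀ ω, X * (1 - bad ω) ≤
        sqErr (S ω) (fun _ => 1) x k + sqErr (S ω) (fun _ => 1) x' k := by
      intro ω
      have hnn := add_nonneg (sqErr_nonneg (hbias ω) (fun _ => 1) x k)
        (sqErr_nonneg (hbias ω) (fun _ => 1) x' k)
      by_cases hc : ∀ i < a, centre (dd q y) ω (K * (2 : ℝ) ^ ((J : ℤ) - (i : ℤ))) x =
          centre (dd q y) ω (K * (2 : ℝ) ^ ((J : ℤ) - (i : ℤ))) x'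
      · refine le_trans ?_ (pair_good hβ1.le hβ2 hβq hγ0.le hγ4 hγs hK hv hj0 hj0' hLSm
          (by omega) haN ha hc)
        refine mul_le_of_le_one_right hX0 ?_
        have : 0 ≤ bad ω := Finset.sum_nonneg fun i _ => by split_ifs <;> norm_num
        linarith
      · push Not at hc
        obtain ⟨i, hi, hne⟩ := hc
        refine le_trans (mul_nonpos_of_nonneg_of_nonpos hX0 ?_) hnn
        have h1 : (1 : ℝ) ≤ bad ω := by
          refine le_trans (le_of_eq ?_) (Finset.single_le_sum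
            (fun j _ => by split_ifs <;> norm_num) (Finset.mem_range.2 hi))
          rw [if_pos hne]
        linarith
    have hGsum : 3 / 4 * X ≤ G k x + G k x' := by
      calc 3 / 4 * X ≤ X * (1 - W * ∑ ω, bad ω) := by nlinarith
        _ = W * ∑ ω, X * (1 - bad ω) := by
          simp only [mul_sub, mul_one, Finset.sum_sub_distrib, Finset.sum_const, nsmul_eq_mul,
            Finset.card_univ, ← Finset.mul_sum]
          rw [Finset.sum_const, nsmul_one, Finset.card_univ] at hW1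
          linear_combination (-X) * hW1
        _ ≤ W * ∑ ω, (sqErr (S ω) (fun _ => 1) x k + sqErr (S ω) (fun _ => 1) x' k) :=
          mul_le_mul_of_nonneg_left (Finset.sum_le_sum fun ω _ => hgood ω) hW0
        _ = _ := by rw [hG, Finset.sum_add_distrib, mul_add]
    have hpow : (v / s) ^ q ≤ Ct * K ^ (q - β) * G k x + Ct * K ^ (q - β) * G k x' := by
      rw [← mul_add]
      refine le_trans (le_of_eq ?_)
        (mul_le_mul_of_nonneg_left hGsum (show 0 ≤ Ct * K ^ (q - β) by positivity))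
      rw [hX, hCt, Real.div_rpow hv0.le hs0.le, Real.div_rpow hv0.le (by positivity),
        Real.mul_rpow (by norm_num : (0:ℝ) ≤ 128) hs0.le]
      field_simp
      norm_num
    have hroot := Real.rpow_le_rpow (by positivity) hpow (inv_nonneg.2 hq0.le)
    rw [Real.rpow_rpow_inv (by positivity) hq0.ne'] at hroot
    rw [← div_le_iff₀ hs0]
    refine hroot.trans ?_
    exact root_add_le hq1 (hτ0 x) (hτ0 x')
  · have hpow : ∀ k, ((Ct * K ^ (q - β) * G k x) ^ q⁻¹) ^ q = Ct * K ^ (q - β) * G k x :=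
      fun k => Real.rpow_inv_rpow (by have := hG0 k x; positivity) hq0.ne'
    simp only [hpow, ← Finset.mul_sum]
    have hsum : ∑ k, G k x ≤ 8 * Real.log n := by
      simp only [hG, ← Finset.mul_sum]
      rw [Finset.sum_comm]
      calc W * ∑ ω, ∑ k, sqErr (S ω) (fun _ => 1) x k ≤ W * ∑ _ω, 8 * Real.log n * 1 := by
            refine mul_le_mul_of_nonneg_left (Finset.sum_le_sum fun ω _ => ?_) hW0
            refine (sum_sqErr_le (hbias ω) (fun _ => zero_le_one) one_pos).trans (le_of_eq ?_)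
            simp
        _ = _ := by rw [← Finset.mul_sum, mul_left_comm, hW1, mul_one]
    calc Ct * K ^ (q - β) * ∑ k, G k x ≤ Ct * K ^ (q - β) * (8 * K) := by
          gcongr; linarith
      _ = _ := by rw [Real.rpow_add hK0, Real.rpow_one]; ring

end Vale.Agent.P249.Sub
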