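import Vale.Agent.P249.Sub.Spec

/-!
Step B: the level decomposition of a family with small intensities into sparse Lipschitz
components.
-/

namespace Vale.Agent.P249.Sub

open Finset

section

variable {q : ℝ} {n m : ℕ} (y : Fin n → Fin m → ℝ) (τ : Fin m → Fin n → ℝ)

/-- The points whose intensity in coordinate `k` is at most `2 ^ e`. -/
noncomputable def lowSet (k : Fin m) (e : ℤ) : Finset (Fin n) := by
  classical exact univ.filter fun z => τ k z ≤ (2 : ℝ) ^ e

/-- The Lipschitz extension of coordinate `k` restricted to the points of intensity `≤ 2 ^ e`. -/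
noncomputable def ext (q : ℝ) (k : Fin m) (e : ℤ) (x : Fin n) : ℝ :=
  if h : (lowSet τ k e).Nonempty then
    (lowSet τ k e).inf' h fun z => y z k + (2 : ℝ) ^ (e + 1) * dd q y z x
  else 0

/-- The average of `W` consecutive extensions. -/
noncomputable def avg (q : ℝ) (W : ℕ) (k : Fin m) (g : ℤ) (x : Fin n) : ℝ :=
  (∑ l ∈ range W, ext y τ q k (g + l) x) / W

/-- The weight of the levels above the critical one. -/
noncomputable def frac (W : ℕ) (es g : ℤ) : ℝ :=
  ((range W).filter fun l : ℕ => es ≤ g + l).card / W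

variable {y τ}

theorem ext_eq (hτ : ∀ x x' k, |y x k - y x' k| ≤ (τ k x + τ k x') * dd q y x x') (hq : 0 < q)
    {k : Fin m} {e : ℤ} {x : Fin n} (hx : τ k x ≤ (2 : ℝ) ^ e) : ext y τ q k e x = y x k := by
  have hxF : x ∈ lowSet τ k e := by simp [lowSet, hx]
  rw [ext, dif_pos ⟨x, hxF⟩]
  refine le_antisymm ?_ (le_inf' _ _ fun z hz => ?_)
  · simpa [dd_self hq] using inf'_le (fun z => y z k + (2 : ℝ) ^ (e + 1) * dd q y z x) hxF
  · have hz' : τ k z ≤ (2 : ℝ) ^ e := by simpa [lowSet] using hz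
    have h1 := (le_abs_self _).trans (hτ x z k)
    have h2 : (τ k x + τ k z) * dd q y x z ≤ (2 : ℝ) ^ (e + 1) * dd q y z x := by
      rw [dd_comm z x, zpow_add_one₀ (by norm_num : (2 : ℝ) ≠ 0)]
      exact mul_le_mul_of_nonneg_right (by linarith) (dd_nonneg _ _)
    linarith

theorem ext_le_add (hq : 1 ≤ q) (k : Fin m) (e : ℤ) (x x' : Fin n) :
    ext y τ q k e x ≤ ext y τ q k e x' + (2 : ℝ) ^ (e + 1) * dd q y x' x := by
  unfold ext
  split_ifs with h
  · obtain ⟨z, hz, hmin⟩ :=
      exists_mem_eq_inf' h fun z => y z k + (2 : ℝ) ^ (e + 1) * dd q y z x'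
    rw [hmin]
    refine (inf'_le _ hz).trans ?_
    have := dd_triangle hq (y := y) z x' x
    have hp : (0 : ℝ) ≤ (2 : ℝ) ^ (e + 1) := by positivity
    nlinarith [mul_le_mul_of_nonneg_left this hp]
  · have := dd_nonneg (q := q) (y := y) x' x
    simp only [zero_add]
    positivity

theorem abs_ext_sub_le (hq : 1 ≤ q) (k : Fin m) (e : ℤ) (x x' : Fin n) :
    |ext y τ q k e x - ext y τ q k e x'| ≤ (2 : ℝ) ^ (e + 1) * dd q y x x' := by
  have h1 := ext_le_add (y := y) (τ := τ) hq k e x x'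
  have h2 := ext_le_add (y := y) (τ := τ) hq k e x' x
  rw [dd_comm x' x] at h1
  rw [abs_le]
  constructor <;> linarith

theorem avg_eq (hτ : ∀ x x' k, |y x k - y x' k| ≤ (τ k x + τ k x') * dd q y x x') (hq : 0 < q)
    {W : ℕ} (hW : 1 ≤ W) {k : Fin m} {g : ℤ} {x : Fin n} (hx : τ k x ≤ (2 : ℝ) ^ g) :
    avg y τ q W k g x = y x k := by
  have h : ∀ l ∈ range W, ext y τ q k (g + l) x = y x k := fun l _ =>
    ext_eq hτ hq (hx.trans (zpow_le_zpow_right₀ one_le_two (by omega)))
  have hW0 : (W : ℝ) ≠ 0 := by exact_mod_cast (by omega : W ≠ 0)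
  rw [avg, sum_congr rfl h, sum_const, card_range, nsmul_eq_mul, mul_div_cancel_left₀ _ hW0]

theorem abs_avg_sub_le (hq : 1 ≤ q) {W : ℕ} (hW : 1 ≤ W) (k : Fin m) (g : ℤ) (x x' : Fin n) :
    |avg y τ q W k g x - avg y τ q W k g x'| ≤ (2 : ℝ) ^ (g + W) * dd q y x x' := by
  have hW0 : (0 : ℝ) < W := by exact_mod_cast hW
  rw [avg, avg, ← sub_div, ← sum_sub_distrib, abs_div, abs_of_pos hW0, div_le_iff₀ hW0]
  calc |∑ l ∈ range W, (ext y τ q k (g + l) x - ext y τ q k (g + l) x')|
      ≤ ∑ l ∈ range W, |ext y τ q k (g + l) x - ext y τ q k (g + l) x'| := abs_sum_le_sum_abs _ _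
    _ ≤ ∑ l ∈ range W, (2 : ℝ) ^ (g + W) * dd q y x x' := sum_le_sum fun l hl => by
        refine (abs_ext_sub_le hq k _ x x').trans (mul_le_mul_of_nonneg_right
          (zpow_le_zpow_right₀ one_le_two ?_) (dd_nonneg _ _))
        have := mem_range.1 hl
        omega
    _ = _ := by rw [sum_const, card_range, nsmul_eq_mul]; ring

theorem frac_nonneg (W : ℕ) (es g : ℤ) : 0 ≤ frac W es g := by unfold frac; positivity

theorem frac_le_one (W : ℕ) (es g : ℤ) : frac W es g ≤ 1 := by
  refine div_le_one_of_le₀ ?_ (Nat.cast_nonneg W)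
  exact_mod_cast (card_filter_le _ _).trans (card_range W).le

theorem frac_mono (W : ℕ) (es : ℤ) {g g' : ℤ} (h : g ≤ g') : frac W es g ≤ frac W es g' := by
  refine div_le_div_of_nonneg_right ?_ (Nat.cast_nonneg W)
  gcongr

theorem frac_eq_zero {W : ℕ} {es g : ℤ} (h : g + W ≤ es) : frac W es g = 0 := by
  have : ((range W).filter fun l : ℕ => es ≤ g + l) = ∅ := filter_eq_empty_iff.2 fun l hl => by
    have := mem_range.1 hl
    omega
  simp [frac, this]

theorem frac_eq_one {W : ℕ} (hW : 1 ≤ W) {es g : ℤ} (h : es ≤ g) : frac W es g = 1 := by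
  have : ((range W).filter fun l : ℕ => es ≤ g + l) = range W :=
    filter_true_of_mem fun l _ => by omega
  rw [frac, this, card_range, div_self (by exact_mod_cast (by omega : W ≠ 0))]

/-- Splitting of a difference of averaged extensions at the critical level. -/
theorem exists_avg_error (hτ : ∀ x x' k, |y x k - y x' k| ≤ (τ k x + τ k x') * dd q y x x')
    (hq : 1 ≤ q) {W : ℕ} (hW : 1 ≤ W) {k : Fin m} {x x' : Fin n} {es : ℤ}
    (hx : τ k x ≤ (2 : ℝ) ^ es) (hx' : τ k x' ≤ (2 : ℝ) ^ es) (g : ℤ) :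
    ∃ E : ℝ, avg y τ q W k g x - avg y τ q W k g x' = frac W es g * (y x k - y x' k) + E ∧
      |E| ≤ (if g < es then (2 : ℝ) ^ (min es (g + W) + 1) else 0) / W * dd q y x x' := by
  set S := dd q y x x' with hS
  have hS0 : 0 ≤ S := dd_nonneg _ _
  set r : ℤ → ℝ := fun e => if es ≤ e then 0 else ext y τ q k e x - ext y τ q k e x' with hr
  have hW0 : (0 : ℝ) < W := by exact_mod_cast hW
  refine ⟨(∑ l ∈ range W, r (g + l)) / W, ?_, ?_⟩
  · have hd : ∀ e, ext y τ q k e x - ext y τ q k e x'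
        = (if es ≤ e then y x k - y x' k else 0) + r e := fun e => by
      by_cases he : es ≤ e
      · have h2 := zpow_le_zpow_right₀ (one_le_two (α := ℝ)) he
        simp [hr, he, ext_eq hτ (by linarith) (hx.trans h2), ext_eq hτ (by linarith) (hx'.trans h2)]
      · simp [hr, he]
    have hd' : ∀ l ∈ range W, ext y τ q k (g + (l : ℤ)) x - ext y τ q k (g + (l : ℤ)) x' = _ :=
      fun l _ => hd (g + l)
    rw [avg, avg, ← sub_div, ← sum_sub_distrib, sum_congr rfl hd',
      sum_add_distrib, ← sum_filter, sum_const, nsmul_eq_mul, frac]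
    ring
  · rw [abs_div, abs_of_pos hW0, div_mul_eq_mul_div]
    refine div_le_div_of_nonneg_right ((abs_sum_le_sum_abs _ _).trans ?_) hW0.le
    by_cases hg : g < es
    · rw [if_pos hg]
      set T := ((range W).filter fun l : ℕ => g + l < es).image fun l : ℕ => g + (l : ℤ) + 1 with hT
      have hsum : ∑ j ∈ T, (2 : ℝ) ^ j ≤ (2 : ℝ) ^ (min es (g + W) + 1) := by
        refine (sum_zpow_le_of_le one_lt_two T (min es (g + W)) fun j hj => ?_).trans (le_of_eq ?_)
        · obtain ⟨l, hl, rfl⟩ := mem_image.1 hj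
          simp only [mem_filter, mem_range] at hl
          omega
        · rw [zpow_add_one₀ (by norm_num : (2 : ℝ) ≠ 0)]; norm_num; ring
      refine le_trans ?_ (mul_le_mul_of_nonneg_right hsum hS0)
      rw [hT, sum_image (fun a _ b _ h => by simpa using h), sum_mul, sum_filter]
      refine sum_le_sum fun l _ => ?_
      by_cases he : g + l < es
      · rw [if_pos he]
        simp only [hr, if_neg (not_le.2 he)]
        exact abs_ext_sub_le hq k _ x x'
      · simp [he, hr, not_lt.1 he]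
    · rw [if_neg hg, zero_mul]
      exact le_of_eq (sum_eq_zero fun l _ => by simp [hr, show es ≤ g + (l : ℤ) by omega])

end

/-- Total of the error bounds below the critical level. -/
theorem error_sum_le {q : ℝ} (hq : 1 ≤ q) {W : ℕ} (hW : 1 ≤ W) (es : ℤ) (T : Finset ℤ) :
    ∑ g ∈ T, (if g < es then (2 : ℝ) ^ (min es (g + W) + 1) else 0) ^ q
      ≤ 3 * W * ((2 : ℝ) ^ (es + 1)) ^ q := by
  classical
  have hW1 : (1 : ℝ) ≤ W := by exact_mod_cast hW
  set a : ℝ := ((2 : ℝ) ^ (es + 1)) ^ q with ha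
  have ha0 : 0 ≤ a := by positivity
  set T1 := T.filter fun g => g < es - W
  set T2 := T.filter fun g => es - W ≤ g ∧ g < es
  have hsplit : ∀ g ∈ T, (if g < es then (2 : ℝ) ^ (min es (g + W) + 1) else 0) ^ q
      ≤ (if g < es - W then ((2 : ℝ) ^ q) ^ (g + W + 1) else 0)
        + (if es - W ≤ g ∧ g < es then a else 0) := fun g _ => by
    by_cases h1 : g < es - W
    · rw [if_pos (show g < es by omega), if_pos h1, if_neg (by omega), add_zero,
        min_eq_right (by omega)]
      rw [← Real.rpow_intCast, ← Real.rpow_intCast, ← Real.rpow_mul two_pos.le,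
        ← Real.rpow_mul two_pos.le, mul_comm]
    · by_cases h2 : g < es
      · rw [if_pos h2, if_neg h1, if_pos ⟨by omega, h2⟩, zero_add, min_eq_left (by omega)]
      · rw [if_neg h2, if_neg h1, if_neg (by tauto), Real.zero_rpow (by linarith)]; simp
  refine (sum_le_sum hsplit).trans ?_
  rw [sum_add_distrib, ← sum_filter, ← sum_filter, sum_const, nsmul_eq_mul]
  have hr1 : (1 : ℝ) < (2 : ℝ) ^ q := Real.one_lt_rpow one_lt_two (by linarith)
  have h1 : ∑ g ∈ T1, ((2 : ℝ) ^ q) ^ (g + W + 1) ≤ 2 * a := by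
    rw [← sum_image (f := fun j => ((2 : ℝ) ^ q) ^ j) (g := fun g : ℤ => g + W + 1)
      (fun a _ b _ h => by simpa using h)]
    refine (sum_zpow_le_of_le hr1 _ (es + 1) fun j hj => ?_).trans ?_
    · obtain ⟨g, hg, rfl⟩ := mem_image.1 hj
      have := (mem_filter.1 hg).2
      omega
    · have h2 : (2 : ℝ) ≤ (2 : ℝ) ^ q := by
        simpa using Real.rpow_le_rpow_of_exponent_le one_le_two hq
      have h3 : ((2 : ℝ) ^ q)⁻¹ ≤ 1 / 2 := by
        rw [one_div]; exact inv_anti₀ two_pos h2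
      have he : ((2 : ℝ) ^ q) ^ (es + 1) = a := by
        rw [ha, ← Real.rpow_intCast, ← Real.rpow_intCast, ← Real.rpow_mul two_pos.le,
          ← Real.rpow_mul two_pos.le, mul_comm]
      rw [he, div_le_iff₀ (by linarith)]
      nlinarith
  have h2 : (T2.card : ℝ) ≤ W := by
    have : T2 ⊆ Finset.Ico (es - W) es := fun g hg => Finset.mem_Ico.2 (mem_filter.1 hg).2
    have := card_le_card this
    rw [Int.card_Ico] at this
    exact_mod_cast this.trans (by omega)
  have h2' := mul_le_mul_of_nonneg_right h2 ha0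
  have h3 := mul_le_mul_of_nonneg_right hW1 ha0
  calc _ ≤ 2 * a + W * a := add_le_add h1 h2'
    _ ≤ _ := by linarith

/-- The lower level of component `j` at offset `o`. -/
def grid {Lv : ℕ} (a : ℤ) (j : ℕ) (o : Fin Lv) : ℤ := (a + j) * Lv + (o : ℕ)

theorem grid_succ {Lv : ℕ} (a : ℤ) (j : ℕ) (o : Fin Lv) : grid a (j + 1) o = grid a j o + Lv := by
  simp [grid]; ring

theorem grid_injective {Lv : ℕ} (hLv : 1 ≤ Lv) (a : ℤ) (N : ℕ) :
    Function.Injective fun p : Fin Lv × Fin N => grid a (p.2 : ℕ) p.1 := by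
  rintro ⟨o, j⟩ ⟨o', j'⟩ h
  simp only [grid] at h
  have hoo := o.isLt
  have hoo' := o'.isLt
  have h' : ((j : ℕ) : ℤ) * Lv + (o : ℕ) = ((j' : ℕ) : ℤ) * Lv + (o' : ℕ) := by linarith
  have h'' : (j : ℕ) * Lv + (o : ℕ) = (j' : ℕ) * Lv + (o' : ℕ) := by exact_mod_cast h'
  have hj : (j : ℕ) = (j' : ℕ) := by
    have h1 := congrArg (· / Lv) h''
    rwa [Nat.mul_comm, Nat.mul_add_div (by omega), Nat.div_eq_of_lt hoo, Nat.mul_comm,
      Nat.mul_add_div (by omega), Nat.div_eq_of_lt hoo', add_zero, add_zero] at h1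
  have ho : (o : ℕ) = (o' : ℕ) := by rw [hj] at h''; omega
  exact Prod.ext (Fin.ext ho) (Fin.ext hj)

/-- The increments of the level weights along the grids: total at most one per offset, and equal
to one for all but `W` offsets. -/
theorem weight_sum_bounds {q ρ : ℝ} (hq : 1 ≤ q) {W Lv : ℕ} (hW : 1 ≤ W) (hLv : 1 ≤ Lv)
    (hWL : (W : ℝ) ≤ ρ * Lv) {Bd : ℤ} {es a : ℤ} (hes : |es| ≤ Bd) (ha : a = -(Bd + 2)) {N : ℕ}
    (hN : N = (2 * Bd + 5).toNat) :
    (1 - ρ) * Lv ≤ ∑ o : Fin Lv, ∑ j : Fin N,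
        (frac W es (grid a (j : ℕ) o + Lv) - frac W es (grid a (j : ℕ) o)) ^ q ∧
      ∑ o : Fin Lv, ∑ j : Fin N,
        (frac W es (grid a (j : ℕ) o + Lv) - frac W es (grid a (j : ℕ) o)) ^ q ≤ Lv := by
  classical
  have hq0 : 0 < q := by linarith
  have hBd0 : 0 ≤ Bd := (abs_nonneg _).trans hes
  have hdelta : ∀ (o : Fin Lv) (j : Fin N),
      0 ≤ frac W es (grid a (j : ℕ) o + Lv) - frac W es (grid a (j : ℕ) o) := fun o j => by
    linarith [frac_mono W es (show grid a (j : ℕ) o ≤ grid a (j : ℕ) o + Lv by omega)]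
  set Φ : Fin Lv → ℝ := fun o =>
    ∑ j : Fin N, (frac W (es) (grid a j o + Lv) - frac W (es) (grid a j o)) ^ q with hΦ
  have hup : ∀ o, Φ o ≤ 1 := fun o => by
    refine (sum_rpow_le_rpow_sum hq (univ : Finset (Fin N))
      (fun j => frac W es (grid a (j : ℕ) o + Lv) - frac W es (grid a (j : ℕ) o))
      fun j _ => hdelta o j).trans
      (Real.rpow_le_one (sum_nonneg fun j _ => hdelta o j) ?_ hq0.le)
    rw [Fin.sum_univ_eq_sum_range
      fun j : ℕ => frac W (es) (grid a j o + Lv) - frac W (es) (grid a j o)]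
    simp only [← grid_succ]
    rw [sum_range_sub fun j : ℕ => frac W (es) (grid a j o)]
    linarith [frac_le_one W (es) (grid a N o), frac_nonneg W (es) (grid a 0 o)]
  let rr : Fin Lv → ℕ := fun o => ((es - (o : ℕ) - 1) % Lv).toNat + 1
  have hrr : ∀ o, W ≤ rr o → 1 ≤ Φ o := fun o hgood => by
    set t := (es - (o : ℕ) - 1) / (Lv : ℤ) with ht
    set r := (es - (o : ℕ) - 1) % (Lv : ℤ) with hr
    have hid : r + Lv * t = es - (o : ℕ) - 1 := Int.emod_add_mul_ediv _ _
    have hr0 : 0 ≤ r := Int.emod_nonneg _ (by omega)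
    have hr1 : r < Lv := Int.emod_lt_of_pos _ (by omega)
    have hb := abs_le.1 (hes)
    have hoo := o.isLt
    have hLvZ : (1 : ℤ) ≤ Lv := by exact_mod_cast hLv
    have hgW : (W : ℤ) ≤ r + 1 := by
      simp only [rr, ← hr] at hgood; omega
    have hoZ : ((o : ℕ) : ℤ) + 1 ≤ Lv := by exact_mod_cast hoo
    have hlo : a ≤ t := by
      by_contra hlt
      have : t + 1 ≤ a := by omega
      have := mul_le_mul_of_nonneg_left this (show (0 : ℤ) ≤ Lv by omega)
      rw [ha] at this
      nlinarith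
    have hhi : t ≤ Bd := by
      by_contra hlt
      have : Bd + 1 ≤ t := by omega
      have := mul_le_mul_of_nonneg_left this (show (0 : ℤ) ≤ Lv by omega)
      nlinarith
    have hjN : (t - a).toNat < N := by rw [hN, ha]; omega
    refine le_trans ?_ (single_le_sum (f := fun j : Fin N =>
      (frac W (es) (grid a j o + Lv) - frac W (es) (grid a j o)) ^ q)
      (fun j _ => Real.rpow_nonneg (hdelta o j) q) (mem_univ ⟨(t - a).toNat, hjN⟩))
    have hg : grid a (t - a).toNat o = es - (r + 1) := by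
      simp only [grid, Int.toNat_of_nonneg (show (0 : ℤ) ≤ t - a by omega)]
      linarith [show (a + (t - a)) * (Lv : ℤ) = Lv * t by ring]
    rw [Fin.val_mk, hg, frac_eq_one hW (by omega), frac_eq_zero (by omega)]
    simp
  have hbad : ((univ.filter fun o => ¬ W ≤ rr o).card : ℝ) ≤ W := by
    have h := card_le_card_of_injOn rr (s := univ.filter fun o => ¬ W ≤ rr o) (t := range W)
      (fun o ho => by simp at ho ⊢; omega) (fun o _ o' _ h => by
        have hoo := o.isLt
        have hoo' := o'.isLt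
        have hr0 := Int.emod_nonneg (es - (o : ℕ) - 1) (show (Lv : ℤ) ≠ 0 by omega)
        have hr0' := Int.emod_nonneg (es - (o' : ℕ) - 1) (show (Lv : ℤ) ≠ 0 by omega)
        simp only [rr] at h
        have h' : (es - (o : ℕ) - 1) % (Lv : ℤ) = (es - (o' : ℕ) - 1) % (Lv : ℤ) := by omega
        have hd := Int.emod_eq_emod_iff_emod_sub_eq_zero.1 h'
        have h0 : ((o' : ℕ) : ℤ) - (o : ℕ) = 0 := Int.eq_zero_of_dvd_of_natAbs_lt_natAbs
          (Int.dvd_of_emod_eq_zero (by
            convert hd using 2; ring)) (by omega)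
        exact Fin.ext (by omega))
    rw [card_range] at h
    exact_mod_cast h
  have hlow : (1 - ρ) * Lv ≤ ∑ o, Φ o := by
    calc (1 - ρ) * (Lv : ℝ) ≤ Lv - (univ.filter fun o => ¬ W ≤ rr o).card := by nlinarith
      _ = ((univ.filter fun o => W ≤ rr o).card : ℝ) := by
          have := card_filter_add_card_filter_not (s := (univ : Finset (Fin Lv)))
            (fun o => W ≤ rr o)
          rw [card_univ, Fintype.card_fin] at this
          rw [sub_eq_iff_eq_add]
          exact_mod_cast this.symm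
      _ ≤ ∑ o, Φ o := by
          rw [← sum_boole]
          refine sum_le_sum fun o _ => ?_
          split_ifs with h
          · exact hrr o h
          · exact sum_nonneg fun j _ => Real.rpow_nonneg (hdelta o j) q
  have hsum : ∑ o, Φ o ≤ Lv := by
    simpa using sum_le_sum (s := (univ : Finset (Fin Lv))) fun o _ => hup o
  exact ⟨hlow, hsum⟩

/-- The total error of one coordinate. -/
theorem error_part {q S M : ℝ} (hq : 1 ≤ q) (hS0 : 0 ≤ S) (hM0 : 0 ≤ M) {W Lv N : ℕ} (hW : 1 ≤ W)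
    (hLv : 1 ≤ Lv) {a es : ℤ} (hM2 : (2 : ℝ) ^ es ≤ 2 * M) {c : ℝ} (hc0 : 0 ≤ c)
    (hcq : c ^ q = (Lv : ℝ)⁻¹) (E : ℤ → ℝ)
    (hEb : ∀ g, |E g| ≤ (if g < es then (2 : ℝ) ^ (min es (g + W) + 1) else 0) / W * S) :
    ∑ o : Fin Lv, ∑ j : Fin N, |c * (E (grid a (j : ℕ) o + Lv) - E (grid a (j : ℕ) o))| ^ q
      ≤ 6 * (8 : ℝ) ^ q * S ^ q / ((W : ℝ) ^ (q - 1) * Lv) * M ^ q := by
  classical
  have hq0 : 0 < q := by linarith
  have hW1 : (1 : ℝ) ≤ W := by exact_mod_cast hW
  have hLvR : (0 : ℝ) < Lv := by exact_mod_cast hLv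
  set b : ℤ → ℝ := fun g =>
    (if g < es then (2 : ℝ) ^ (min (es) (g + W) + 1) else 0) with hb
  have hb0 : ∀ g, 0 ≤ b g := fun g => by simp only [hb]; split_ifs <;> positivity
  have hE' : ∀ g, |E g| ^ q ≤ (S / W) ^ q * b g ^ q := fun g => by
    rw [← Real.mul_rpow (by positivity) (hb0 g)]
    refine Real.rpow_le_rpow (abs_nonneg _) ((hEb g).trans (le_of_eq ?_)) hq0.le
    simp only [hb]; ring
  have hRb : ∀ p : Fin Lv × Fin N,
      |c * (E (grid a (p.2 : ℕ) p.1 + Lv) - E (grid a (p.2 : ℕ) p.1))| ^ q ≤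
      (Lv : ℝ)⁻¹ * 2 ^ q * (S / W) ^ q * (b (grid a p.2 p.1 + Lv) ^ q + b (grid a p.2 p.1) ^ q) := fun p => by
    rw [abs_mul, abs_of_nonneg hc0, Real.mul_rpow hc0 (abs_nonneg _), hcq, mul_assoc,
      mul_assoc]
    refine mul_le_mul_of_nonneg_left
      ((Real.rpow_le_rpow (abs_nonneg _) (abs_sub _ _) hq0.le).trans
      ((add_rpow_le_two_rpow_mul (abs_nonneg _) (abs_nonneg _) hq0.le).trans
        (mul_le_mul_of_nonneg_left ?_ (by positivity)))) (by positivity)
    rw [mul_add]
    exact add_le_add (hE' _) (hE' _)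
  rw [← Fintype.sum_prod_type' (f := fun o (j : Fin N) =>
    |c * (E (grid a (j : ℕ) o + Lv) - E (grid a (j : ℕ) o))| ^ q)]
  refine (sum_le_sum fun p _ => hRb p).trans ?_
  rw [← mul_sum, sum_add_distrib]
  have hi1 : ∑ p : Fin Lv × Fin N, b (grid a p.2 p.1 + Lv) ^ q
      ≤ 3 * W * ((2 : ℝ) ^ (es + 1)) ^ q := by
    rw [← sum_image (f := fun g => b g ^ q)
      (g := fun p : Fin Lv × Fin N => grid a p.2 p.1 + (Lv : ℤ))
      (fun p _ p' _ h => (grid_injective hLv a N) (by simpa using h))]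
    exact error_sum_le hq hW _ _
  have hi2 : ∑ p : Fin Lv × Fin N, b (grid a p.2 p.1) ^ q
      ≤ 3 * W * ((2 : ℝ) ^ (es + 1)) ^ q := by
    rw [← sum_image (f := fun g => b g ^ q) (g := fun p : Fin Lv × Fin N => grid a p.2 p.1)
      (grid_injective hLv a N).injOn]
    exact error_sum_le hq hW _ _
  have hbase : ((2 : ℝ) ^ (es + 1)) ^ q ≤ 4 ^ q * M ^ q := by
    rw [← Real.mul_rpow (by norm_num) (hM0)]
    refine Real.rpow_le_rpow (by positivity) ?_ hq0.le
    rw [zpow_add_one₀ (by norm_num : (2 : ℝ) ≠ 0)]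
    linarith [hM2]
  calc _ ≤ (Lv : ℝ)⁻¹ * 2 ^ q * (S / W) ^ q * (6 * W * (4 ^ q * M ^ q)) := by
        refine mul_le_mul_of_nonneg_left ?_ (by positivity)
        nlinarith [mul_le_mul_of_nonneg_left hbase (show (0 : ℝ) ≤ 6 * W by positivity)]
    _ = _ := by
        have hWp : (0 : ℝ) < W := by linarith
        rw [Real.div_rpow hS0 hWp.le, show (8 : ℝ) = 2 * 4 by norm_num,
          Real.mul_rpow two_pos.le (by norm_num), Real.rpow_sub hWp, Real.rpow_one]
        field_simp

/-- Step B of the subpolynomial dimension reduction. -/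
theorem levelsSpec {q : ℝ} (hq : 1 ≤ q) : LevelsSpec q := by
  intro ρ hρ hρ4 n m y τ B Lv W hW hWL hτ0 hτ hB hcond
  classical
  have hq0 : 0 < q := by linarith
  have hW1 : (1 : ℝ) ≤ W := by exact_mod_cast hW
  have hLvR : (0 : ℝ) < Lv := by nlinarith
  have hLv : 1 ≤ Lv := by exact_mod_cast (Nat.cast_pos.1 hLvR : 0 < Lv)
  have hWLv : W ≤ Lv := by
    have : (W : ℝ) ≤ Lv := hWL.trans (by nlinarith)
    exact_mod_cast this
  set Bd : ℤ := ∑ k, ∑ x, |Int.clog 2 (τ k x)| with hBd
  have hBd0 : 0 ≤ Bd := sum_nonneg fun k _ => sum_nonneg fun x _ => abs_nonneg _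
  set a : ℤ := -(Bd + 2) with ha
  set N : ℕ := (2 * Bd + 5).toNat with hN
  set c : ℝ := (Lv : ℝ) ^ (-q⁻¹) with hc
  have hc0 : 0 ≤ c := by positivity
  have hcq : c ^ q = (Lv : ℝ)⁻¹ := by
    rw [hc, ← Real.rpow_mul hLvR.le, neg_mul, inv_mul_cancel₀ hq0.ne', Real.rpow_neg_one]
  have hgr_inj := grid_injective hLv a N
  let Y : Fin n → Fin m × Fin Lv × Fin N → ℝ := fun x p =>
    c * (avg y τ q W p.1 (grid a (p.2.2 : ℕ) p.2.1 + Lv) x - avg y τ q W p.1 (grid a (p.2.2 : ℕ) p.2.1) x)
  let L : Fin m × Fin Lv × Fin N → ℝ := fun p =>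
    c * (2 : ℝ) ^ (grid a (p.2.2 : ℕ) p.2.1 + Lv + W + 1)
  refine ⟨Fin m × Fin Lv × Fin N, inferInstance, Y, L, fun p => by positivity, ?_, ?_, ?_⟩
  · intro x x' p
    set g := grid a (p.2.2 : ℕ) p.2.1 with hg
    have h1 := abs_avg_sub_le (y := y) (τ := τ) hq hW p.1 (g + Lv) x x'
    have h2 := abs_avg_sub_le (y := y) (τ := τ) hq hW p.1 g x x'
    have h3 : (2 : ℝ) ^ (g + W) ≤ (2 : ℝ) ^ (g + Lv + W) :=
      zpow_le_zpow_right₀ one_le_two (by omega)
    have h4 : (2 : ℝ) ^ (g + Lv + W + 1) = 2 * (2 : ℝ) ^ (g + Lv + W) := by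
      rw [zpow_add_one₀ (by norm_num : (2 : ℝ) ≠ 0)]; ring
    have h5 := dd_nonneg (q := q) (y := y) x x'
    show |c * (avg y τ q W p.1 (g + Lv) x - avg y τ q W p.1 g x)
        - c * (avg y τ q W p.1 (g + Lv) x' - avg y τ q W p.1 g x')|
      ≤ c * (2 : ℝ) ^ (g + Lv + W + 1) * dd q y x x'
    rw [← mul_sub, abs_mul, abs_of_nonneg hc0, mul_assoc, h4]
    refine mul_le_mul_of_nonneg_left ?_ hc0
    rw [abs_le] at h1 h2 ⊢
    have h6 := mul_le_mul_of_nonneg_right h3 h5
    constructor <;> nlinarith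
  · -- support
    intro x
    have hsupp : ∀ p, Y x p ≠ 0 → (2 : ℝ) ^ grid a (p.2.2 : ℕ) p.2.1 < τ p.1 x := fun p hp => by
      by_contra hle
      push Not at hle
      refine hp ?_
      simp only [Y]
      rw [avg_eq hτ hq0 hW hle,
        avg_eq hτ hq0 hW (hle.trans (zpow_le_zpow_right₀ one_le_two (by omega)))]
      simp
    set K : ℝ := (2 : ℝ) ^ (q * (2 * Lv + 2)) with hK
    have key : ∀ k : Fin m, ∑ o, ∑ j : Fin N,
        (if (2 : ℝ) ^ grid a (j : ℕ) o < τ k x then L (k, o, j) ^ q else 0) ≤ K * (2 * τ k x ^ q) := by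
      intro k
      rw [← Fintype.sum_prod_type']
      rcases (hτ0 k x).eq_or_lt with h0 | hpos
      · refine le_trans (le_of_eq (sum_eq_zero fun p _ => ?_)) (by positivity)
        rw [if_neg]; rw [← h0]; exact not_lt.2 (by positivity)
      set e0 := Int.clog 2 (τ k x) - 1 with he0
      have hlt : ∀ g : ℤ, (2 : ℝ) ^ g < τ k x → g ≤ e0 := fun g hg => by
        by_contra hgt
        have h1 : Int.clog 2 (τ k x) ≤ g := by omega
        have h2 := (Int.self_le_zpow_clog (b := 2) one_lt_two (τ k x))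
        push_cast at h2
        linarith [h2.trans (zpow_le_zpow_right₀ (one_le_two (α := ℝ)) h1)]
      have hr1 : (1 : ℝ) < (2 : ℝ) ^ q := Real.one_lt_rpow one_lt_two hq0
      have hLq : ∀ p : Fin Lv × Fin N,
          L (k, p.1, p.2) ^ q ≤ K * ((2 : ℝ) ^ q) ^ grid a (p.2 : ℕ) p.1 := fun p => by
        simp only [L]
        rw [Real.mul_rpow hc0 (by positivity), hcq, ← Real.rpow_intCast, ← Real.rpow_intCast,
          ← Real.rpow_mul two_pos.le, ← Real.rpow_mul two_pos.le, hK, ← Real.rpow_add two_pos]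
        refine (mul_le_of_le_one_left (by positivity) ?_).trans
          (Real.rpow_le_rpow_of_exponent_le one_le_two ?_)
        · exact inv_le_one_of_one_le₀ (by exact_mod_cast hLv)
        · push_cast
          have : (W : ℝ) ≤ Lv := by exact_mod_cast hWLv
          nlinarith
      calc _ ≤ ∑ p : Fin Lv × Fin N, K *
            (if grid a (p.2 : ℕ) p.1 ≤ e0 then ((2 : ℝ) ^ q) ^ grid a (p.2 : ℕ) p.1 else 0) :=
            sum_le_sum fun p _ => by
              by_cases h : (2 : ℝ) ^ grid a (p.2 : ℕ) p.1 < τ k x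
              · rw [if_pos h, if_pos (hlt _ h)]; exact hLq p
              · rw [if_neg h]; positivity
        _ = K * ∑ g ∈ ((univ : Finset (Fin Lv × Fin N)).image fun p => grid a (p.2 : ℕ) p.1).filter
              (· ≤ e0), ((2 : ℝ) ^ q) ^ g := by
            rw [sum_filter, sum_image hgr_inj.injOn, mul_sum]
        _ ≤ K * (2 * τ k x ^ q) := by
            refine mul_le_mul_of_nonneg_left ?_ (by positivity)
            refine (sum_zpow_le_of_le hr1 _ e0 fun g hg => (mem_filter.1 hg).2).trans ?_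
            have h2 : (2 : ℝ) ≤ (2 : ℝ) ^ q := by
              simpa using Real.rpow_le_rpow_of_exponent_le one_le_two hq
            have h3 : ((2 : ℝ) ^ q)⁻¹ ≤ 1 / 2 := by rw [one_div]; exact inv_anti₀ two_pos h2
            have h4 : ((2 : ℝ) ^ q) ^ e0 ≤ τ k x ^ q := by
              have h5 := Int.zpow_pred_clog_lt_self (b := 2) one_lt_two hpos
              push_cast at h5
              calc ((2 : ℝ) ^ q) ^ e0 = ((2 : ℝ) ^ e0) ^ q := by
                    rw [← Real.rpow_intCast, ← Real.rpow_intCast, ← Real.rpow_mul two_pos.le,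
                      ← Real.rpow_mul two_pos.le, mul_comm]
                _ ≤ _ := Real.rpow_le_rpow (by positivity) h5.le hq0.le
            rw [div_le_iff₀ (by linarith)]
            nlinarith [Real.rpow_nonneg (hτ0 k x) q]
    calc ∑ p ∈ univ.filter (fun p => Y x p ≠ 0), L p ^ q
        ≤ ∑ p ∈ univ.filter (fun p => (2 : ℝ) ^ grid a (p.2.2 : ℕ) p.2.1 < τ p.1 x), L p ^ q :=
          sum_le_sum_of_subset_of_nonneg (fun p hp => by
            simp only [mem_filter] at hp ⊢; exact ⟨hp.1, hsupp p hp.2⟩) fun p _ _ => by positivity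
      _ = ∑ k, ∑ o, ∑ j : Fin N,
            (if (2 : ℝ) ^ grid a (j : ℕ) o < τ k x then L (k, o, j) ^ q else 0) := by
          rw [sum_filter, Fintype.sum_prod_type]
          exact sum_congr rfl fun k _ => Fintype.sum_prod_type _
      _ ≤ ∑ k, K * (2 * τ k x ^ q) := sum_le_sum fun k _ => key k
      _ ≤ _ := by
          rw [← mul_sum, ← mul_sum, Real.rpow_add two_pos, Real.rpow_one, hK, mul_assoc]
          exact mul_le_mul_of_nonneg_left (mul_le_mul_of_nonneg_left (hB x) two_pos.le)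
            (by positivity)
  · -- distances
    intro x x'
    set S := dd q y x x' with hS
    have hS0 : 0 ≤ S := dd_nonneg _ _
    let es : Fin m → ℤ := fun k =>
      if 0 < max (τ k x) (τ k x') then Int.clog 2 (max (τ k x) (τ k x')) else 0
    have hdiff : ∀ k, ∃ (es : ℤ) (M : ℝ), |es| ≤ Bd ∧ 0 ≤ M ∧ M ^ q ≤ τ k x ^ q + τ k x' ^ q ∧
        ∀ g, ∃ E : ℝ, avg y τ q W k g x - avg y τ q W k g x'
            = frac W es g * (y x k - y x' k) + E ∧
          |E| ≤ (if g < es then (2 : ℝ) ^ (min es (g + W) + 1) else 0) / W * S ∧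
          (M = 0 → E = 0) ∧ (M ≠ 0 → (2 : ℝ) ^ es ≤ 2 * M) := by
      intro k
      set M := max (τ k x) (τ k x') with hM
      have hM0 : 0 ≤ M := le_max_of_le_left (hτ0 k x)
      have hMq : M ^ q ≤ τ k x ^ q + τ k x' ^ q := by
        rcases max_choice (τ k x) (τ k x') with h | h <;> rw [hM, h] <;>
          linarith [Real.rpow_nonneg (hτ0 k x) q, Real.rpow_nonneg (hτ0 k x') q]
      rcases hM0.eq_or_lt with h0 | hpos
      · refine ⟨0, M, by simpa using hBd0, hM0, hMq, fun g => ⟨0, ?_, ?_, fun _ => rfl,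
          fun h => absurd h0.symm h⟩⟩
        · have h1 : τ k x ≤ 0 := (le_max_left _ _).trans h0.symm.le
          have h2 : τ k x' ≤ 0 := (le_max_right _ _).trans h0.symm.le
          have hp : (0 : ℝ) ≤ (2 : ℝ) ^ g := by positivity
          have hv : y x k - y x' k = 0 := by
            have h := hτ x x' k
            have h3 : (τ k x + τ k x') * dd q y x x' ≤ 0 :=
              mul_nonpos_of_nonpos_of_nonneg (by linarith) (dd_nonneg _ _)
            exact abs_nonpos_iff.1 (h.trans h3)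
          rw [avg_eq hτ hq0 hW (h1.trans hp), avg_eq hτ hq0 hW (h2.trans hp), hv]
          ring
        · rw [abs_zero]; split_ifs <;> positivity
      · set e := Int.clog 2 M with he
        have h2 : M ≤ (2 : ℝ) ^ e := by
          have := Int.self_le_zpow_clog (b := 2) one_lt_two M
          exact_mod_cast this
        have h3 : (2 : ℝ) ^ e ≤ 2 * M := by
          have h := Int.zpow_pred_clog_lt_self (b := 2) one_lt_two hpos
          push_cast at h
          rw [zpow_sub_one₀ (by norm_num : (2 : ℝ) ≠ 0), ← he] at h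
          linarith
        refine ⟨e, M, ?_, hM0, hMq, fun g => ?_⟩
        · have hle : ∀ z, |Int.clog 2 (τ k z)| ≤ Bd := fun z =>
            (single_le_sum (f := fun z => |Int.clog 2 (τ k z)|) (fun _ _ => abs_nonneg _)
              (mem_univ z)).trans (single_le_sum (f := fun k => ∑ z, |Int.clog 2 (τ k z)|)
                (fun _ _ => sum_nonneg fun _ _ => abs_nonneg _) (mem_univ k))
          rcases max_choice (τ k x) (τ k x') with h | h <;> rw [he, hM, h] <;> exact hle _
        · obtain ⟨E, hE1, hE2⟩ := exists_avg_error hτ hq hW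
            ((le_max_left _ _).trans h2) ((le_max_right _ _).trans h2) g
          exact ⟨E, hE1, hE2, fun h => absurd h hpos.ne', fun _ => h3⟩
    choose e M he hM0 hMq hdec using hdiff
    choose E hE hEb hEz hMe using hdec
    set v : Fin m → ℝ := fun k => y x k - y x' k with hv
    let P : Fin m × Fin Lv × Fin N → ℝ := fun p =>
      c * ((frac W (e p.1) (grid a (p.2.2 : ℕ) p.2.1 + Lv) - frac W (e p.1) (grid a (p.2.2 : ℕ) p.2.1))
        * v p.1)
    let R : Fin m × Fin Lv × Fin N → ℝ := fun p =>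
      c * (E p.1 (grid a (p.2.2 : ℕ) p.2.1 + Lv) - E p.1 (grid a (p.2.2 : ℕ) p.2.1))
    have hY : ∀ p, Y x p - Y x' p = P p + R p := fun p => by
      simp only [Y, P, R, hv]
      linear_combination c * hE p.1 (grid a (p.2.2 : ℕ) p.2.1 + Lv)
        - c * hE p.1 (grid a (p.2.2 : ℕ) p.2.1)
    have hdelta : ∀ (k : Fin m) (o : Fin Lv) (j : ℕ), 0 ≤ frac W (e k) (grid a j o + Lv) - frac W (e k) (grid a j o) :=
      fun k o j => by linarith [frac_mono W (e k) (show grid a j o ≤ grid a j o + Lv by omega)]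
    -- the main part
    have hmain : ∀ k, ((1 - ρ) * |v k| ^ q ≤ ∑ o, ∑ j : Fin N, |P (k, o, j)| ^ q) ∧
        ∑ o, ∑ j : Fin N, |P (k, o, j)| ^ q ≤ |v k| ^ q := by
      intro k
      have hP : ∀ o (j : Fin N), |P (k, o, j)| ^ q = (Lv : ℝ)⁻¹ * |v k| ^ q *
          (frac W (e k) (grid a j o + Lv) - frac W (e k) (grid a j o)) ^ q := fun o j => by
        simp only [P]
        rw [abs_mul, abs_mul, abs_of_nonneg hc0, abs_of_nonneg (hdelta k o j),
          Real.mul_rpow hc0 (mul_nonneg (hdelta k o j) (abs_nonneg _)),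
          Real.mul_rpow (hdelta k o j) (abs_nonneg _), hcq]
        ring
      simp only [hP, ← mul_sum]
      obtain ⟨hlow, hsum⟩ := weight_sum_bounds hq hW hLv hWL (he k) ha hN
      constructor
      · calc (1 - ρ) * |v k| ^ q = (Lv : ℝ)⁻¹ * |v k| ^ q * ((1 - ρ) * Lv) := by field_simp
          _ ≤ _ := mul_le_mul_of_nonneg_left hlow (by positivity)
      · calc _ ≤ (Lv : ℝ)⁻¹ * |v k| ^ q * Lv := mul_le_mul_of_nonneg_left hsum (by positivity)
          _ = _ := by field_simp
    -- the error part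
    have herr : ∀ k, ∑ o, ∑ j : Fin N, |R (k, o, j)| ^ q
        ≤ 6 * (8 : ℝ) ^ q * S ^ q / ((W : ℝ) ^ (q - 1) * Lv) * M k ^ q := by
      intro k
      rcases eq_or_ne (M k) 0 with h0 | h0
      · have hR : ∀ o (j : Fin N), R (k, o, j) = 0 := fun o j => by
          simp [R, hEz k _ h0]
        simp [hR, h0, Real.zero_rpow hq0.ne']
      exact error_part hq hS0 (hM0 k) hW hLv (hMe k 0 h0) hc0 hcq (E k) (hEb k)
    -- conclusion
    have hvs : ∑ k, |v k| ^ q = S ^ q := by rw [hS, dd_rpow hq0]; rfl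
    have hprod : ∀ f : Fin m × Fin Lv × Fin N → ℝ,
        ∑ p, f p = ∑ k, ∑ o, ∑ j, f (k, o, j) := fun f => by
      rw [Fintype.sum_prod_type]
      exact sum_congr rfl fun k _ => Fintype.sum_prod_type _
    have hPu : (∑ p, |P p| ^ q) ^ q⁻¹ ≤ S := by
      refine le_of_le_of_eq (Real.rpow_le_rpow (by positivity) ?_ (by positivity))
        (Real.rpow_rpow_inv hS0 hq0.ne')
      rw [hprod, ← hvs]
      exact sum_le_sum fun k _ => (hmain k).2
    have hPl : (1 - ρ) * S ≤ (∑ p, |P p| ^ q) ^ q⁻¹ := by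
      have h1 : (0 : ℝ) < 1 - ρ := by linarith
      refine le_trans ?_ (Real.rpow_le_rpow (by positivity)
        (show (1 - ρ) * S ^ q ≤ ∑ p, |P p| ^ q from ?_) (by positivity))
      · rw [Real.mul_rpow h1.le (by positivity), Real.rpow_rpow_inv hS0 hq0.ne']
        refine mul_le_mul_of_nonneg_right ?_ hS0
        exact Real.self_le_rpow_of_le_one h1.le (by linarith) (inv_le_one_of_one_le₀ hq)
      · rw [hprod, ← hvs, mul_sum]
        exact sum_le_sum fun k _ => (hmain k).1
    have hRu : (∑ p, |R p| ^ q) ^ q⁻¹ ≤ ρ * S := by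
      refine le_of_le_of_eq (Real.rpow_le_rpow (by positivity) ?_ (by positivity))
        (Real.rpow_rpow_inv (mul_nonneg hρ.le hS0) hq0.ne')
      rw [hprod, Real.mul_rpow hρ.le hS0]
      refine (sum_le_sum fun k _ => herr k).trans ?_
      rw [← mul_sum]
      have hMB : ∑ k, M k ^ q ≤ 2 * B := by
        refine (sum_le_sum fun k _ => hMq k).trans ?_
        rw [sum_add_distrib]
        linarith [hB x, hB x']
      have hB0 : 0 ≤ B := le_trans (sum_nonneg fun k _ => Real.rpow_nonneg (hτ0 k x) q) (hB x)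
      have hden : (0 : ℝ) < (W : ℝ) ^ (q - 1) * Lv := by
        have : (0 : ℝ) < W := by linarith
        positivity
      rw [div_mul_eq_mul_div, div_le_iff₀ hden]
      have h8 : (0 : ℝ) ≤ 6 * (8 : ℝ) ^ q * S ^ q := by positivity
      nlinarith [mul_le_mul_of_nonneg_left hMB h8,
        mul_le_mul_of_nonneg_left hcond (show (0 : ℝ) ≤ S ^ q by positivity),
        mul_nonneg (show (0 : ℝ) ≤ (8 : ℝ) ^ q * S ^ q by positivity) hB0]
    have hYd : dd q Y x x' = (∑ p, |P p + R p| ^ q) ^ q⁻¹ := by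
      simp only [dd, pd, hY]
    rw [hYd]
    have hadd := sum_rpow_root_add_le hq univ P R
    have hsub := sum_rpow_root_add_le hq univ (fun p => P p + R p) (fun p => -R p)
    simp only [add_neg_cancel_right, abs_neg] at hsub
    constructor <;> linarith

end Vale.Agent.P249.Sub
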