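import Vale.Agent.P249.Sub.Basic

/-!
Interfaces of the three steps of the subpolynomial dimension reduction in `ℓ_q`.
-/

namespace Vale.Agent.P249.Sub

open Finset

/-- Step A: pointwise intensities of small total mass that dominate all coordinate differences. -/
def IntensitySpec (q β : ℝ) : Prop :=
  ∃ C : ℝ, 0 ≤ C ∧ ∀ (n m : ℕ) (y : Fin n → Fin m → ℝ), ∃ τ : Fin m → Fin n → ℝ,
    (∀ k x, 0 ≤ τ k x) ∧ (∀ x x' k, |y x k - y x' k| ≤ (τ k x + τ k x') * dd q y x x') ∧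
    ∀ x, ∑ k, τ k x ^ q ≤ C * (Real.log n + 1) ^ (q - β + 1)

/-- Step B: the level decomposition into sparse Lipschitz components. -/
def LevelsSpec (q : ℝ) : Prop :=
  ∀ ρ : ℝ, 0 < ρ → ρ ≤ 1 / 4 → ∀ (n m : ℕ) (y : Fin n → Fin m → ℝ) (τ : Fin m → Fin n → ℝ)
    (B : ℝ) (Lv W : ℕ), 1 ≤ W → (W : ℝ) ≤ ρ * Lv → (∀ k x, 0 ≤ τ k x) →
    (∀ x x' k, |y x k - y x' k| ≤ (τ k x + τ k x') * dd q y x x') →
    (∀ x, ∑ k, τ k x ^ q ≤ B) →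
    16 * (8 : ℝ) ^ q * B ≤ ρ ^ q * (W : ℝ) ^ (q - 1) * Lv →
    ∃ (ι : Type) (_ : Fintype ι) (Y : Fin n → ι → ℝ) (L : ι → ℝ),
      (∀ i, 0 ≤ L i) ∧ (∀ x x' i, |Y x i - Y x' i| ≤ L i * dd q y x x') ∧
      (∀ x, ∑ i ∈ Finset.univ.filter (fun i => Y x i ≠ 0), L i ^ q ≤
        (2 : ℝ) ^ (q * (2 * Lv + 2) + 1) * B) ∧
      ∀ x x', (1 - 2 * ρ) * dd q y x x' ≤ dd q Y x x' ∧ dd q Y x x' ≤ (1 + ρ) * dd q y x x'

/-- Step C: sparse Lipschitz families embed in dimension polynomial in their mass. -/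
def SparsifySpec (q : ℝ) : Prop :=
  ∀ ε : ℝ, 0 < ε → ε < 1 → ∃ C E : ℝ, 0 ≤ C ∧ 0 ≤ E ∧
    ∀ (n : ℕ) (ι : Type) [Fintype ι] (Y : Fin n → ι → ℝ) (L : ι → ℝ)
      (s : Fin n → Fin n → ℝ) (A : ℝ), 1 ≤ A → (∀ i, 0 ≤ L i) → (∀ x x', 0 ≤ s x x') →
      (∀ x x' i, |Y x i - Y x' i| ≤ L i * s x x') →
      (∀ x, ∑ i ∈ Finset.univ.filter (fun i => Y x i ≠ 0), L i ^ q ≤ A) →
      (∀ x x', s x x' ^ q ≤ (2 : ℝ) ^ q * pd q Y x x') →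
      ∃ (d : ℕ) (z : Fin n → Fin d → ℝ), (d : ℝ) ≤ C * (A * (Real.log n + 1)) ^ E ∧
        ∀ x x', (1 - ε) * pd q Y x x' ≤ pd q z x x' ∧ pd q z x x' ≤ (1 + ε) * pd q Y x x'

end Vale.Agent.P249.Sub
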