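import Vale.Agent.P249.Sub.Defs
import Vale.Agent.P249.Sub.Spec
import Vale.Agent.P249.Sub.Intensity

/-!
Assembly of the three steps: for `p > 1` and any distortion `D > 1`, dimension
`exp (O((log n) ^ θ))` with `θ < 1` suffices, so the dimension is `n ^ o(1)`.
-/

open scoped ENNReal

namespace Vale.Agent.P249

universe u

namespace Sub

theorem finiteReduces_subpoly {q β θ A : ℝ} (hq : 1 < q) (hθ : 0 < θ)
    (hexp : q - β + 1 = q * θ) (hA : 1 < A) (hI : IntensitySpec q β) (hL : LevelsSpec q)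
    (hS : SparsifySpec q) :
    ∃ C : ℝ, ∀ n : ℕ, FiniteReduces q n A (Real.exp (C * (Real.log n + 1) ^ θ)) := by
  have hq0 : 0 < q := by linarith
  obtain ⟨CA, hCA, hIA⟩ := hI
  set a : ℝ := √A with ha
  have ha1 : 1 < a := by rw [ha, Real.lt_sqrt zero_le_one]; linarith
  set ε : ℝ := (a - 1) / (a + 1) with hε
  have hε0 : 0 < ε := div_pos (by linarith) (by linarith)
  have hε1 : ε < 1 := by rw [hε, div_lt_one (by linarith)]; linarith
  set r : ℝ := a ^ q⁻¹ with hr
  have hr1 : 1 < r := Real.one_lt_rpow ha1 (inv_pos.2 hq0)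
  set ρ : ℝ := min (1 / 4) ((r - 1) / (1 + 2 * r)) with hρ
  have hρ0 : 0 < ρ := lt_min (by norm_num) (div_pos (by linarith) (by linarith))
  have hρ4 : ρ ≤ 1 / 4 := min_le_left _ _
  have hρr : 1 + ρ ≤ r * (1 - 2 * ρ) := by
    have h := min_le_right (1 / 4 : ℝ) ((r - 1) / (1 + 2 * r))
    rw [← hρ, le_div_iff₀ (by linarith)] at h
    linarith
  obtain ⟨CS, E, hCS, hE, hSp⟩ := hS ε hε0 hε1
  set c0 : ℝ := 16 * (8 : ℝ) ^ q * CA / (ρ ^ q * (ρ / 2) ^ (q - 1)) with hc0
  have hc00 : 0 ≤ c0 := by rw [hc0]; positivity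
  set c1 : ℝ := c0 ^ q⁻¹ + 2 / ρ with hc1
  have hc10 : 0 < c1 := by rw [hc1]; positivity
  set C2 : ℝ := q * (2 * c1 + 4) + 1 + CA + q + 1 with hC2
  refine ⟨CS + (C2 + 1 / θ) * E, fun n N y => ?_⟩
  set K := Real.log n + 1 with hK
  have hK1 : 1 ≤ K := by linarith [Real.log_natCast_nonneg n]
  have hK0 : 0 < K := by linarith
  set T := K ^ θ with hT
  have hT1 : 1 ≤ T := Real.one_le_rpow hK1 hθ.le
  set Lv : ℕ := ⌈c1 * T⌉₊ with hLv
  have hLge : c1 * T ≤ Lv := Nat.le_ceil _
  have hLle : (Lv : ℝ) ≤ (c1 + 1) * T := by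
    linarith [(Nat.ceil_lt_add_one (mul_nonneg hc10.le (by linarith : (0 : ℝ) ≤ T))).le]
  set W : ℕ := ⌊ρ * Lv⌋₊ with hW
  have hρL : 2 ≤ ρ * Lv := by
    have h1 : 2 / ρ ≤ c1 := by rw [hc1]; linarith [Real.rpow_nonneg hc00 q⁻¹]
    rw [div_le_iff₀ hρ0] at h1
    calc (2 : ℝ) ≤ c1 * ρ * T := h1.trans (le_mul_of_one_le_right (by positivity) hT1)
      _ = ρ * (c1 * T) := by ring
      _ ≤ _ := mul_le_mul_of_nonneg_left hLge hρ0.le
  have hW1 : 1 ≤ W := Nat.le_floor (by push_cast; linarith)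
  have hWle : (W : ℝ) ≤ ρ * Lv := Nat.floor_le (by linarith)
  have hWge : ρ / 2 * Lv ≤ W := by linarith [Nat.lt_floor_add_one (ρ * Lv)]
  obtain ⟨τ, hτ0, hτ, hτB⟩ := hIA n N y
  rw [hexp] at hτB
  set B : ℝ := CA * K ^ (q * θ) with hB
  have hB0 : 0 ≤ B := by positivity
  have hTq : K ^ (q * θ) = T ^ q := by rw [hT, mul_comm, Real.rpow_mul hK0.le]
  have hLv0 : (0 : ℝ) < Lv := lt_of_lt_of_le (by positivity) hLge
  have hcond : 16 * (8 : ℝ) ^ q * B ≤ ρ ^ q * (W : ℝ) ^ (q - 1) * Lv := by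
    calc 16 * (8 : ℝ) ^ q * B = ρ ^ q * (ρ / 2) ^ (q - 1) * ((c0 ^ q⁻¹ * T) ^ q) := by
          rw [Real.mul_rpow (by positivity) (by linarith), Real.rpow_inv_rpow hc00 hq0.ne', hB,
            hTq, hc0]
          field_simp
      _ ≤ ρ ^ q * (ρ / 2) ^ (q - 1) * (Lv : ℝ) ^ q := by
          gcongr
          refine le_trans ?_ hLge
          gcongr
          rw [hc1]; linarith [show 0 < 2 / ρ by positivity]
      _ = ρ ^ q * (ρ / 2 * Lv) ^ (q - 1) * Lv := by
          rw [Real.mul_rpow (by positivity) hLv0.le, Real.rpow_sub_one hLv0.ne' q]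
          field_simp
      _ ≤ _ := by gcongr
  obtain ⟨ι, _, Y, L, hL0, hLip, hsupp, hY⟩ :=
    hL ρ hρ0 hρ4 n N y τ B Lv W hW1 hWle hτ0 hτ hτB hcond
  set Am : ℝ := 1 + (2 : ℝ) ^ (q * (2 * Lv + 2) + 1) * B with hAm
  have hAm1 : 1 ≤ Am := le_add_of_nonneg_right (by positivity)
  have h12 : 0 < 1 - 2 * ρ := by linarith
  have hlow : ∀ x x', (1 - 2 * ρ) ^ q * pd q y x x' ≤ pd q Y x x' := fun x x' => by
    rw [← dd_rpow hq0, ← dd_rpow hq0, ← Real.mul_rpow h12.le (dd_nonneg _ _)]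
    exact Real.rpow_le_rpow (mul_nonneg h12.le (dd_nonneg _ _)) (hY x x').1 hq0.le
  have hhigh : ∀ x x', pd q Y x x' ≤ (1 + ρ) ^ q * pd q y x x' := fun x x' => by
    rw [← dd_rpow hq0, ← dd_rpow hq0, ← Real.mul_rpow (by linarith) (dd_nonneg _ _)]
    exact Real.rpow_le_rpow (dd_nonneg _ _) (hY x x').2 hq0.le
  obtain ⟨d, z, hd, hz⟩ := hSp n ι Y L (dd q y) Am hAm1 hL0 dd_nonneg hLip
    (fun x => (hsupp x).trans (by linarith [hAm])) (fun x x' => by
      rw [dd_rpow hq0]
      calc pd q y x x' ≤ (2 * (1 - 2 * ρ)) ^ q * pd q y x x' :=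
            le_mul_of_one_le_left (pd_nonneg _ _ _) (Real.one_le_rpow (by linarith) hq0.le)
        _ = 2 ^ q * ((1 - 2 * ρ) ^ q * pd q y x x') := by
            rw [Real.mul_rpow two_pos.le h12.le, mul_assoc]
        _ ≤ _ := mul_le_mul_of_nonneg_left (hlow x x') (by positivity))
  set lam : ℝ := ((1 - ε) * (1 - 2 * ρ) ^ q)⁻¹ with hlam
  have hε' : 0 < 1 - ε := by linarith
  have hlam0 : 0 < lam := inv_pos.2 (by positivity)
  refine ⟨d, fun x l => lam ^ q⁻¹ * z x l, ?_, fun x x' => ?_⟩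
  · -- the dimension bound
    have hexpT : T ≤ Real.exp T := by linarith [Real.add_one_le_exp T]
    have h2 : (2 : ℝ) ^ (q * (2 * Lv + 2) + 1) ≤ Real.exp ((q * (2 * c1 + 4) + 1) * T) := by
      rw [Real.rpow_def_of_pos two_pos, Real.exp_le_exp]
      have hx0 : 0 ≤ q * (2 * (Lv : ℝ) + 2) + 1 := by positivity
      calc Real.log 2 * (q * (2 * Lv + 2) + 1) ≤ 1 * (q * (2 * Lv + 2) + 1) := by
            gcongr; linarith [Real.log_two_lt_d9]
        _ ≤ _ := by
            have := mul_le_mul_of_nonneg_left (show 2 * (Lv : ℝ) + 2 ≤ (2 * c1 + 4) * T by linarith)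
              hq0.le
            linarith
    have hBle : B ≤ Real.exp ((CA + q) * T) := by
      rw [hB, hTq, show (CA + q) * T = CA * T + T * q by ring, Real.exp_add, Real.exp_mul T q]
      refine mul_le_mul ?_ (Real.rpow_le_rpow (by linarith) hexpT hq0.le) (by positivity)
        (by positivity)
      linarith [Real.add_one_le_exp (CA * T), le_mul_of_one_le_right hCA hT1]
    have hAle : Am ≤ Real.exp (C2 * T) := by
      have hC0 : 0 ≤ (q * (2 * c1 + 4) + 1) * T + (CA + q) * T := by positivity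
      calc Am ≤ 1 + Real.exp ((q * (2 * c1 + 4) + 1) * T) * Real.exp ((CA + q) * T) := by
            rw [hAm]; gcongr
        _ ≤ 2 * Real.exp ((q * (2 * c1 + 4) + 1) * T + (CA + q) * T) := by
            rw [← Real.exp_add]; linarith [Real.one_le_exp hC0]
        _ ≤ Real.exp T * Real.exp ((q * (2 * c1 + 4) + 1) * T + (CA + q) * T) := by
            gcongr; linarith [Real.add_one_le_exp T]
        _ = _ := by rw [← Real.exp_add, hC2]; congr 1; ring
    have hKle : K ≤ Real.exp (T / θ) := by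
      calc K = T ^ θ⁻¹ := (Real.rpow_rpow_inv hK0.le hθ.ne').symm
        _ ≤ Real.exp T ^ θ⁻¹ := Real.rpow_le_rpow (by linarith) hexpT (by positivity)
        _ = _ := by rw [← Real.exp_mul, div_eq_mul_inv]
    have hAK : Am * K ≤ Real.exp ((C2 + 1 / θ) * T) := by
      calc Am * K ≤ Real.exp (C2 * T) * Real.exp (T / θ) :=
            mul_le_mul hAle hKle hK0.le (by positivity)
        _ = _ := by rw [← Real.exp_add]; congr 1; ring
    calc (d : ℝ) ≤ CS * (Am * K) ^ E := hd
      _ ≤ Real.exp (CS * T) * Real.exp ((C2 + 1 / θ) * T) ^ E := by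
          refine mul_le_mul ?_ (Real.rpow_le_rpow (by positivity) hAK hE) (by positivity)
            (by positivity)
          linarith [Real.add_one_le_exp (CS * T), le_mul_of_one_le_right hCS hT1]
      _ = _ := by rw [← Real.exp_mul, ← Real.exp_add, hT]; congr 1; ring
  · have hsc : pd q (fun x l => lam ^ q⁻¹ * z x l) x x' = lam * pd q z x x' := by
      simp only [pd]
      rw [Finset.mul_sum]
      refine Finset.sum_congr rfl fun l _ => ?_
      rw [← mul_sub, abs_mul, Real.mul_rpow (abs_nonneg _) (abs_nonneg _),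
        abs_of_nonneg (by positivity), Real.rpow_inv_rpow hlam0.le hq0.ne']
    rw [hsc, hlam]
    constructor
    · rw [le_inv_mul_iff₀ (by positivity), mul_assoc]
      exact (mul_le_mul_of_nonneg_left (hlow x x') hε'.le).trans (hz x x').1
    · rw [inv_mul_le_iff₀ (by positivity)]
      calc pd q z x x' ≤ (1 + ε) * ((1 + ρ) ^ q * pd q y x x') :=
            (hz x x').2.trans (mul_le_mul_of_nonneg_left (hhigh x x') (by linarith))
        _ ≤ (1 + ε) * ((r * (1 - 2 * ρ)) ^ q * pd q y x x') := by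
            refine mul_le_mul_of_nonneg_left (mul_le_mul_of_nonneg_right ?_ (pd_nonneg _ _ _))
              (by linarith)
            exact Real.rpow_le_rpow (by linarith) hρr hq0.le
        _ = _ := by
            have haε : 1 + ε = a * (1 - ε) := by rw [hε]; field_simp; ring
            have haA : a * a = A := Real.mul_self_sqrt (by linarith)
            rw [Real.mul_rpow (by linarith) h12.le, hr,
              Real.rpow_inv_rpow (by linarith) hq0.ne', haε, ← haA]
            ring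

/-- The three steps give the theorem. -/
theorem subpolynomialDim_of (hI : ∀ q β : ℝ, 1 < β → β ≤ 2 → β < q → IntensitySpec q β)
    (hL : ∀ q : ℝ, 1 ≤ q → LevelsSpec q) (hS : ∀ q : ℝ, 1 ≤ q → SparsifySpec q) :
    SubpolynomialDim.{u} := by
  intro p _ hp1 hp D hD
  set q := p.toReal with hq
  have hq1 : 1 < q := by
    have := (ENNReal.toReal_lt_toReal ENNReal.one_ne_top hp).2 hp1
    simpa using this
  have hq0 : 0 < q := by linarith
  have main : ∀ θ : ℝ, max (1 / q) (1 - 1 / q) < θ → θ < 1 → ∃ C : ℝ,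
      ∀ n : ℕ, 2 ≤ n → EmbedsWithDim.{u} p n D (Real.exp (C * Real.log n ^ θ)) := by
    intro θ hθ hθ1
    obtain ⟨h1, h2⟩ := max_lt_iff.1 hθ
    have hθ0 : 0 < θ := lt_trans (by positivity) h1
    rw [div_lt_iff₀ hq0] at h1
    have h2' : q - 1 < q * θ := by
      have := mul_lt_mul_of_pos_left h2 hq0
      rwa [mul_sub, mul_one_div_cancel hq0.ne', mul_one] at this
    set β := q * (1 - θ) + 1 with hβ
    set A := ((1 + D) / 2) ^ q with hA
    have hA1 : 1 < A := Real.one_lt_rpow (by linarith) hq0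
    obtain ⟨C, hC⟩ := finiteReduces_subpoly (θ := θ) hq1 hθ0 (show q - β + 1 = q * θ by rw [hβ]; ring)
      hA1 (hI q β (by nlinarith) (by nlinarith) (by nlinarith)) (hL q hq1.le) (hS q hq1.le)
    refine ⟨3 * |C|, fun n hn => ?_⟩
    have hlog : 1 / 2 ≤ Real.log n := by
      have := Real.log_le_log two_pos (show (2 : ℝ) ≤ n by exact_mod_cast hn)
      linarith [Real.log_two_gt_d9]
    refine embedsWithDim_of_finiteReduces hp hA1.le ?_ ?_
    · rw [hA, Real.rpow_rpow_inv (by linarith) hq0.ne', one_lt_div (by linarith)]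
      linarith
    · intro N y
      obtain ⟨d, z, hd, hz⟩ := hC n N y
      refine ⟨d, z, hd.trans (Real.exp_le_exp.2 ?_), hz⟩
      calc C * (Real.log n + 1) ^ θ ≤ |C| * (Real.log n + 1) ^ θ :=
            mul_le_mul_of_nonneg_right (le_abs_self C) (by positivity)
        _ ≤ |C| * (3 * Real.log n ^ θ) := by
            gcongr
            calc (Real.log n + 1) ^ θ ≤ (3 * Real.log n) ^ θ :=
                  Real.rpow_le_rpow (by linarith) (by linarith) hθ0.le
              _ = 3 ^ θ * Real.log n ^ θ := Real.mul_rpow (by norm_num) (by linarith)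
              _ ≤ _ := mul_le_mul_of_nonneg_right
                  (Real.rpow_le_self_of_one_le (by norm_num) hθ1.le) (by positivity)
        _ = _ := by ring
  refine ⟨main, fun δ hδ => ?_⟩
  have hm : max (1 / q) (1 - 1 / q) < 1 :=
    max_lt (by rwa [div_lt_one hq0]) (by linarith [show 0 < 1 / q by positivity])
  obtain ⟨θ, hθl, hθ1⟩ := exists_between hm
  obtain ⟨C, hC⟩ := main θ hθl hθ1
  have hθ0 : 0 < θ := lt_of_lt_of_le (show 0 < 1 / q by positivity) ((le_max_left _ _).trans hθl.le)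
  set L0 : ℝ := (|C| / δ) ^ (1 - θ)⁻¹ with hL0
  refine ⟨Real.exp (|C| * L0 ^ θ), fun n hn => ?_⟩
  intro Ω m μ X
  obtain ⟨d, hd, f, hf⟩ := hC n hn Ω m μ X
  refine ⟨d, hd.trans ?_, f, hf⟩
  have hn0 : (0 : ℝ) < n := by exact_mod_cast (show 0 < n by omega)
  have hl := Real.log_natCast_nonneg n
  rw [Real.rpow_def_of_pos hn0, ← Real.exp_add, Real.exp_le_exp]
  have hC1 : C * Real.log n ^ θ ≤ |C| * Real.log n ^ θ :=
    mul_le_mul_of_nonneg_right (le_abs_self C) (by positivity)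
  have hL00 : 0 ≤ L0 := by rw [hL0]; positivity
  have hpos : 0 ≤ |C| * L0 ^ θ := by positivity
  rcases le_total (Real.log n) L0 with h | h
  · have : |C| * Real.log n ^ θ ≤ |C| * L0 ^ θ := by gcongr
    nlinarith
  · suffices |C| * Real.log n ^ θ ≤ Real.log n * δ by linarith
    rcases hl.eq_or_lt with h0 | h0
    · rw [← h0, Real.zero_rpow hθ0.ne']; simp
    have hp' : |C| / δ ≤ Real.log n ^ (1 - θ) := by
      have := Real.rpow_le_rpow hL00 h (show 0 ≤ 1 - θ by linarith)
      rwa [hL0, Real.rpow_inv_rpow (by positivity) (by linarith)] at this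
    rw [div_le_iff₀ hδ] at hp'
    calc |C| * Real.log n ^ θ ≤ Real.log n ^ (1 - θ) * δ * Real.log n ^ θ := by gcongr
      _ = _ := by
          rw [mul_right_comm, ← Real.rpow_add h0, sub_add_cancel, Real.rpow_one]

end Sub

end Vale.Agent.P249
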