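import Vale.Agent.P249.Sub.Spec

/-!
Step C: a sparse Lipschitz family is sampled with probabilities proportional to `L i ^ q`, which
leaves few nonzero coordinates per vector, and is then hashed into polynomially many buckets.
-/

namespace Vale.Agent.P249.Sub

open Finset

theorem pow_mul_exp_le (n k : ℕ) {c : ℝ} (hk : (k : ℝ) ≤ c) :
    (n : ℝ) ^ k * Real.exp (-(c * (Real.log n + 1))) ≤ Real.exp (-c) := by
  have hl := Real.log_natCast_nonneg n
  have h1 : (n : ℝ) ^ k ≤ Real.exp (k * Real.log n) := by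
    rcases Nat.eq_zero_or_pos n with rfl | hn
    · simpa using pow_le_one₀ (le_refl (0 : ℝ)) zero_le_one (n := k)
    · rw [Real.exp_nat_mul, Real.exp_log (Nat.cast_pos.2 hn)]
  calc (n : ℝ) ^ k * Real.exp (-(c * (Real.log n + 1)))
      ≤ Real.exp (k * Real.log n) * Real.exp (-(c * (Real.log n + 1))) :=
        mul_le_mul_of_nonneg_right h1 (Real.exp_pos _).le
    _ = Real.exp (k * Real.log n + -(c * (Real.log n + 1))) := (Real.exp_add _ _).symm
    _ ≤ _ := Real.exp_le_exp.2 (by nlinarith [mul_le_mul_of_nonneg_right hk hl])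

/-- Two given keys collide under a uniformly random hash with probability at most `1 / N`. -/
theorem prob_collide_le {T : Type*} [Fintype T] [DecidableEq T] {N : ℕ} (hN : 0 < N) {t t' : T}
    (h : t ≠ t') :
    prob (fun _ : T → Fin N => ∏ _k : T, (N : ℝ)⁻¹) (fun f => f t = f t') ≤ (N : ℝ)⁻¹ := by
  classical
  have hN' : (N : ℝ) ≠ 0 := by positivity
  refine (prob_le_expect (g := fun f => ∑ c, (if f t = c then (1 : ℝ) else 0) *
    (if f t' = c then 1 else 0)) (fun f => by positivity) (fun f => ?_) (fun f hf => ?_)).trans ?_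
  · exact Finset.sum_nonneg fun c _ => by split_ifs <;> norm_num
  · simp [hf]
  simp_rw [Finset.mul_sum]
  rw [Finset.sum_comm]
  have hc : ∀ c : Fin N, ∑ f : T → Fin N, (∏ _k : T, (N : ℝ)⁻¹) *
      ((if f t = c then (1 : ℝ) else 0) * (if f t' = c then 1 else 0)) = (N : ℝ)⁻¹ * (N : ℝ)⁻¹ := by
    intro c
    have := sum_pi_prod (T := T) (κ := fun _ => Fin N) (fun _ _ => (N : ℝ)⁻¹)
      (fun k i => if k ∈ ({t, t'} : Finset T) then (if i = c then 1 else 0) else 1)
    have hfac : ∀ k : T, ∑ i : Fin N, (N : ℝ)⁻¹ *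
        (if k ∈ ({t, t'} : Finset T) then (if i = c then 1 else 0) else 1)
          = if k ∈ ({t, t'} : Finset T) then (N : ℝ)⁻¹ else 1 := fun k => by
      split_ifs <;> simp [hN']
    simp_rw [hfac, Finset.prod_ite_mem, Finset.univ_inter, Finset.prod_pair h] at this
    exact this
  rw [Finset.sum_congr rfl fun c _ => hc c]
  simp [hN']

section Fiber

variable {T : Type*} [Fintype T] {N : ℕ} {q : ℝ}

theorem fiber_sum_le (hq : 1 ≤ q) (f : T → Fin N) (v : T → ℝ) {R : ℝ}
    (hR : ((univ.filter fun t => v t ≠ 0).card : ℝ) ≤ R) :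
    ∑ c, |∑ t ∈ univ.filter (fun t => f t = c), v t| ^ q ≤ R ^ q * ∑ t, |v t| ^ q := by
  classical
  set P := ∑ t, |v t| ^ q with hP
  have hP0 : 0 ≤ P := Finset.sum_nonneg fun t _ => Real.rpow_nonneg (abs_nonneg _) _
  have hR0 : 0 ≤ R := le_trans (Nat.cast_nonneg _) hR
  have hle : ∑ t, |v t| ≤ R * P ^ q⁻¹ := by
    rw [← Finset.sum_filter_of_ne (p := fun t => v t ≠ 0) (fun t _ ht h => ht (by simp [h]))]
    refine le_trans (Finset.sum_le_card_nsmul _ _ (P ^ q⁻¹) fun t _ => ?_) ?_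
    · rw [← Real.rpow_rpow_inv (abs_nonneg (v t)) (show q ≠ 0 by linarith)]
      exact Real.rpow_le_rpow (Real.rpow_nonneg (abs_nonneg _) _)
        (Finset.single_le_sum (f := fun t => |v t| ^ q)
          (fun i _ => Real.rpow_nonneg (abs_nonneg _) _) (Finset.mem_univ t))
        (inv_nonneg.2 (by linarith))
    · rw [nsmul_eq_mul]
      exact mul_le_mul_of_nonneg_right hR (Real.rpow_nonneg hP0 _)
  calc ∑ c, |∑ t ∈ univ.filter (fun t => f t = c), v t| ^ q
      ≤ ∑ c, (∑ t ∈ univ.filter (fun t => f t = c), |v t|) ^ q :=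
        Finset.sum_le_sum fun c _ => Real.rpow_le_rpow (abs_nonneg _)
          (Finset.abs_sum_le_sum_abs _ _) (by linarith)
    _ ≤ (∑ c, ∑ t ∈ univ.filter (fun t => f t = c), |v t|) ^ q :=
        sum_rpow_le_rpow_sum hq _ _ fun c _ => Finset.sum_nonneg fun t _ => abs_nonneg _
    _ = (∑ t, |v t|) ^ q := by rw [Finset.sum_fiberwise]
    _ ≤ (R * P ^ q⁻¹) ^ q :=
        Real.rpow_le_rpow (Finset.sum_nonneg fun t _ => abs_nonneg _) hle (by linarith)
    _ = R ^ q * P := by
        rw [Real.mul_rpow hR0 (Real.rpow_nonneg hP0 _), Real.rpow_inv_rpow hP0 (by linarith)]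

theorem fiber_sum_eq (hq : 0 < q) (f : T → Fin N) (v : T → ℝ)
    (hinj : ∀ t, v t ≠ 0 → ∀ t', v t' ≠ 0 → f t = f t' → t = t') :
    ∑ c, |∑ t ∈ univ.filter (fun t => f t = c), v t| ^ q = ∑ t, |v t| ^ q := by
  classical
  rw [← Finset.sum_fiberwise univ f fun t => |v t| ^ q]
  refine Finset.sum_congr rfl fun c _ => ?_
  by_cases hex : ∃ t ∈ univ.filter (fun t => f t = c), v t ≠ 0
  · obtain ⟨t, ht, hvt⟩ := hex
    have hz : ∀ t' ∈ univ.filter (fun t => f t = c), t' ≠ t → v t' = 0 := fun t' ht' hne => by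
      by_contra hv
      exact hne (hinj t' hv t hvt
        ((Finset.mem_filter.1 ht').2.trans (Finset.mem_filter.1 ht).2.symm))
    rw [Finset.sum_eq_single t hz fun h => absurd ht h,
      Finset.sum_eq_single t (fun t' ht' hne => by simp [hz t' ht' hne, Real.zero_rpow hq.ne'])
        fun h => absurd ht h]
  · push Not at hex
    rw [Finset.sum_eq_zero hex, abs_zero, Real.zero_rpow hq.ne',
      Finset.sum_eq_zero fun t ht => by rw [hex t ht, abs_zero, Real.zero_rpow hq.ne']]

end Fiber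

/-- Hashing into buckets preserves all distances between vectors of small support. -/
theorem exists_hashing {q : ℝ} (hq : 1 ≤ q) {n M M2 N : ℕ} (u : Fin n → Fin M → ℝ) {ε R : ℝ}
    (hε : 0 < ε) (hR : 1 ≤ R)
    (hM2 : 48 * (Real.log n + 1) * R ^ q ≤ ε * M2) (hNb : 4 * R ^ (2 + q) ≤ ε * N)
    (hsupp : ∀ x x', ((univ.filter fun t => u x t - u x' t ≠ 0).card : ℝ) ≤ R) :
    ∃ z : Fin n → Fin M2 × Fin N → ℝ, ∀ x x',
      (1 - ε) * pd q u x x' ≤ pd q z x x' ∧ pd q z x x' ≤ (1 + ε) * pd q u x x' := by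
  classical
  have hK : 1 ≤ Real.log n + 1 := by linarith [Real.log_natCast_nonneg n]
  have hRq : 1 ≤ R ^ q := Real.one_le_rpow hR (by linarith)
  have hM2R : (0 : ℝ) < M2 :=
    (pos_iff_pos_of_mul_pos (lt_of_lt_of_le (by positivity) hM2)).1 hε
  have hNR : (0 : ℝ) < N :=
    (pos_iff_pos_of_mul_pos (lt_of_lt_of_le (by positivity) hNb)).1 hε
  have hN : 0 < N := Nat.cast_pos.1 hNR
  set w : (Fin M → Fin N) → ℝ := fun _ => ∏ _k : Fin M, (N : ℝ)⁻¹ with hw
  have hwp : IsProb w :=
    IsProb.pi (T := Fin M) (κ := fun _ => Fin N) (w := fun _ _ => (N : ℝ)⁻¹) fun _ =>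
      ⟨fun _ => by positivity, by simp [hNR.ne']⟩
  set bad : Fin n × Fin n → (Fin M → Fin N) → Prop := fun p f =>
    ∃ e ∈ (univ.filter fun t => u p.1 t - u p.2 t ≠ 0).offDiag, f e.1 = f e.2 with hbad
  set η := ε / (2 * R ^ q) with hη
  have hη0 : 0 < η := by positivity
  have hpbad : ∀ p, prob w (bad p) ≤ η / 2 := fun p => by
    refine (prob_exists_le hwp.nonneg _ _).trans ?_
    refine le_trans (Finset.sum_le_card_nsmul _ _ ((N : ℝ)⁻¹) fun e he =>
      prob_collide_le hN (Finset.mem_offDiag.1 he).2.2) ?_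
    rw [nsmul_eq_mul, Finset.offDiag_card]
    set c := (univ.filter fun t => u p.1 t - u p.2 t ≠ 0).card
    have hc : ((c * c - c : ℕ) : ℝ) ≤ R ^ (2 : ℝ) := by
      rw [Real.rpow_two, sq]
      calc ((c * c - c : ℕ) : ℝ) ≤ ((c * c : ℕ) : ℝ) := by exact_mod_cast Nat.sub_le _ _
        _ ≤ R * R := by
          push_cast
          exact mul_le_mul (hsupp _ _) (hsupp _ _) (Nat.cast_nonneg _) (by linarith)
    refine (mul_le_mul_of_nonneg_right hc (by positivity)).trans ?_
    rw [hη, ← div_eq_mul_inv, div_div, div_le_div_iff₀ hNR (by positivity)]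
    rw [Real.rpow_add (by linarith)] at hNb
    linarith
  set W : (Fin M2 → Fin M → Fin N) → ℝ := fun ω => ∏ l, w (ω l) with hW
  have hWp : IsProb W := IsProb.pi fun _ => hwp
  let B : Fin n × Fin n → (Fin M2 → Fin M → Fin N) → Prop := fun p ω =>
    (1 + 1) * (η * M2 / 2) ≤ ∑ l, if bad p (ω l) then (1 : ℝ) else 0
  have hB : ∀ p, prob W (B p) ≤ Real.exp (-(3 * (Real.log n + 1))) := fun p => by
    refine (chernoff_upper (T := Fin M2) (κ := fun _ => Fin M → Fin N) (w := fun _ => w)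
      (fun _ => hwp) (fun _ f => if bad p f then (1 : ℝ) else 0)
      (fun _ f => by split_ifs <;> norm_num) (fun _ f => by split_ifs <;> norm_num)
      (m := η * M2 / 2) (ε := 1) (by positivity) ?_ one_pos (by norm_num)).trans ?_
    · have h1 : ∑ f, w f * (if bad p f then (1 : ℝ) else 0) ≤ η / 2 := by
        refine le_trans (le_of_eq ?_) (hpbad p)
        unfold prob
        exact Finset.sum_congr rfl fun f _ => by split_ifs <;> simp
      calc ∑ _l : Fin M2, ∑ f, w f * (if bad p f then (1 : ℝ) else 0)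
          ≤ ∑ _l : Fin M2, η / 2 := Finset.sum_le_sum fun _ _ => h1
        _ = η * M2 / 2 := by
          rw [Finset.sum_const, Finset.card_univ, Fintype.card_fin, nsmul_eq_mul]; ring
    · refine Real.exp_le_exp.2 ?_
      have h2 : 24 * (Real.log n + 1) ≤ η * M2 := by
        rw [hη, div_mul_eq_mul_div, le_div_iff₀ (by positivity)]
        linarith
      linarith
  obtain ⟨ω, hω⟩ := exists_of_small_bad hWp B _ hB (by
    have := pow_mul_exp_le n 2 (c := 3) (by norm_num)
    rw [Fintype.card_prod, Fintype.card_fin, Nat.cast_mul, ← pow_two]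
    exact this.trans_lt (Real.exp_lt_one_iff.2 (by norm_num)))
  refine ⟨fun x (j : Fin M2 × Fin N) => ((M2 : ℝ)⁻¹) ^ q⁻¹ * ∑ t ∈ univ.filter (fun t => ω j.1 t = j.2), u x t,
    fun x x' => ?_⟩
  set P := pd q u x x' with hP
  have hP0 : 0 ≤ P := pd_nonneg _ _ _
  set Φ : Fin M2 → ℝ := fun l =>
    ∑ c, |∑ t ∈ univ.filter (fun t => ω l t = c), (u x t - u x' t)| ^ q with hΦ
  have hz : pd q (fun x (j : Fin M2 × Fin N) => ((M2 : ℝ)⁻¹) ^ q⁻¹ *
      ∑ t ∈ univ.filter (fun t => ω j.1 t = j.2), u x t) x x' = (M2 : ℝ)⁻¹ * ∑ l, Φ l := by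
    simp only [pd, hΦ, Fintype.sum_prod_type]
    rw [Finset.mul_sum]
    refine Finset.sum_congr rfl fun l _ => ?_
    rw [Finset.mul_sum]
    refine Finset.sum_congr rfl fun c _ => ?_
    rw [← mul_sub, ← Finset.sum_sub_distrib, abs_mul, Real.mul_rpow (abs_nonneg _) (abs_nonneg _),
      abs_of_nonneg (Real.rpow_nonneg (by positivity) _),
      Real.rpow_inv_rpow (by positivity) (by linarith)]
  rw [hz]
  set ind : Fin M2 → ℝ := fun l => if bad (x, x') (ω l) then 1 else 0 with hind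
  have hdev : ∀ l, |Φ l - P| ≤ R ^ q * P * ind l := fun l => by
    by_cases hb : bad (x, x') (ω l)
    · simp only [hind, if_pos hb, mul_one]
      have h1 : Φ l ≤ R ^ q * P := fiber_sum_le hq _ _ (hsupp x x')
      have h2 : 0 ≤ Φ l := Finset.sum_nonneg fun _ _ => Real.rpow_nonneg (abs_nonneg _) _
      have h3 : P ≤ R ^ q * P := le_mul_of_one_le_left hP0 hRq
      rw [abs_sub_le_iff]
      constructor <;> linarith
    · simp only [hind, if_neg hb, mul_zero]
      have hinj : ∀ t, u x t - u x' t ≠ 0 → ∀ t', u x t' - u x' t' ≠ 0 → ω l t = ω l t' → t = t' :=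
        fun t ht t' ht' he => by
          by_contra hne
          exact hb ⟨(t, t'), Finset.mem_offDiag.2 ⟨Finset.mem_filter.2 ⟨Finset.mem_univ _, ht⟩,
            Finset.mem_filter.2 ⟨Finset.mem_univ _, ht'⟩, hne⟩, he⟩
      have : Φ l = P := fiber_sum_eq (by linarith) _ _ hinj
      simp [this]
  have hcount : ∑ l, ind l ≤ η * M2 := by
    have := hω (x, x')
    simp only [B, not_le] at this
    simp only [hind]
    linarith
  have hsum : |(M2 : ℝ)⁻¹ * ∑ l, Φ l - P| ≤ ε * P := by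
    have e : (M2 : ℝ)⁻¹ * ∑ l, Φ l - P = (M2 : ℝ)⁻¹ * ∑ l, (Φ l - P) := by
      rw [Finset.sum_sub_distrib, Finset.sum_const, Finset.card_univ, Fintype.card_fin,
        nsmul_eq_mul, mul_sub, inv_mul_cancel_left₀ hM2R.ne']
    rw [e, abs_mul, abs_of_nonneg (by positivity), inv_mul_le_iff₀ hM2R]
    calc |∑ l, (Φ l - P)| ≤ ∑ l, R ^ q * P * ind l :=
          (Finset.abs_sum_le_sum_abs _ _).trans (Finset.sum_le_sum fun l _ => hdev l)
      _ ≤ R ^ q * P * (η * M2) := by
          rw [← Finset.mul_sum]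
          exact mul_le_mul_of_nonneg_left hcount (by positivity)
      _ = (M2 : ℝ) * (ε * P) / 2 := by rw [hη]; field_simp
      _ ≤ _ := by linarith [show 0 ≤ (M2 : ℝ) * (ε * P) by positivity]
  obtain ⟨h1, h2⟩ := abs_sub_le_iff.1 hsum
  constructor <;> linarith

/-- Importance sampling with probabilities proportional to `L i ^ q`. -/
theorem exists_sampling {q : ℝ} (hq : 1 ≤ q) {n : ℕ} {ι : Type} [Fintype ι]
    (Y : Fin n → ι → ℝ) (L : ι → ℝ) (s : Fin n → Fin n → ℝ) {A ε G : ℝ} (hA : 1 ≤ A)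
    (hL : ∀ i, 0 ≤ L i) (hs : ∀ x x', 0 ≤ s x x')
    (hlip : ∀ x x' i, |Y x i - Y x' i| ≤ L i * s x x')
    (hmass : ∀ x, ∑ i ∈ univ.filter (fun i => Y x i ≠ 0), L i ^ q ≤ A)
    (hspd : ∀ x x', s x x' ^ q ≤ (2 : ℝ) ^ q * pd q Y x x')
    (hε : 0 < ε) (hε1 : ε < 1) (hG : 24 * (2 : ℝ) ^ q * (Real.log n + 1) ≤ ε ^ 2 * G) :
    ∃ (M : ℕ) (u : Fin n → Fin M → ℝ),
      (∀ x x', (1 - ε) * pd q Y x x' ≤ pd q u x x' ∧ pd q u x x' ≤ (1 + ε) * pd q Y x x') ∧
      ∀ x x', ((univ.filter fun t => u x t - u x' t ≠ 0).card : ℝ) ≤ 8 * G * A := by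
  classical
  have hq0 : 0 < q := by linarith
  have hK : 1 ≤ Real.log n + 1 := by linarith [Real.log_natCast_nonneg n]
  set K := Real.log n + 1 with hKdef
  have h2q : 1 ≤ (2 : ℝ) ^ q := Real.one_le_rpow (by norm_num) hq0.le
  have hGK : 24 * K ≤ G := by
    have h1 : 24 * K ≤ 24 * (2 : ℝ) ^ q * K := by
      nlinarith [mul_le_mul_of_nonneg_right h2q (by linarith : (0 : ℝ) ≤ K)]
    have h2 : 0 < G := by
      by_contra hG0
      push Not at hG0
      linarith [mul_nonpos_of_nonneg_of_nonpos (sq_nonneg ε) hG0]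
    have h3 : ε ^ 2 * G ≤ G := mul_le_of_le_one_left h2.le (pow_le_one₀ hε.le hε1.le)
    linarith
  let Y' : Fin n → Option ι → ℝ := fun x i => i.elim 0 (Y x)
  let L' : Option ι → ℝ := fun i => i.elim 1 L
  have hpd : ∀ x x', pd q Y' x x' = pd q Y x x' := fun x x' => by
    simp [pd, Y', Fintype.sum_option, Real.zero_rpow hq0.ne']
  have hL' : ∀ i, 0 ≤ L' i := fun i => by cases i <;> simp [L', hL]
  have hlip' : ∀ x x' i, |Y' x i - Y' x' i| ≤ L' i * s x x' := fun x x' i => by
    cases i <;> simp [Y', L', hlip, hs]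
  set Z := ∑ i, L' i ^ q with hZ
  have hZ1 : 1 ≤ Z := by
    rw [hZ, Fintype.sum_option]
    simp only [L', Option.elim_none, Option.elim_some, Real.one_rpow]
    linarith [Finset.sum_nonneg fun i (_ : i ∈ (univ : Finset ι)) => Real.rpow_nonneg (hL i) q]
  set M := ⌈Z * G⌉₊ with hM
  have hM1 : Z * G ≤ M := Nat.le_ceil _
  have hM2 : (M : ℝ) ≤ Z * G + 1 :=
    (Nat.ceil_lt_add_one (mul_nonneg (by linarith) (by linarith))).le
  have hMpos : (0 : ℝ) < M := lt_of_lt_of_le (mul_pos (by linarith) (by linarith)) hM1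
  set w : Option ι → ℝ := fun i => L' i ^ q / Z with hw
  have hwp : IsProb w :=
    ⟨fun i => div_nonneg (Real.rpow_nonneg (hL' i) _) (by linarith), by
      simp only [hw]
      rw [← Finset.sum_div, ← hZ, div_self (by linarith)]⟩
  set W : (Fin M → Option ι) → ℝ := fun ω => ∏ t, w (ω t) with hW
  have hWp : IsProb W := IsProb.pi fun _ => hwp
  set g : Fin n → Fin n → Option ι → ℝ := fun x x' i =>
    |Y' x i - Y' x' i| ^ q / (L' i ^ q * s x x' ^ q) with hg
  have hg0 : ∀ x x' i, 0 ≤ g x x' i := fun x x' i =>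
    div_nonneg (Real.rpow_nonneg (abs_nonneg _) _)
      (mul_nonneg (Real.rpow_nonneg (hL' i) _) (Real.rpow_nonneg (hs _ _) _))
  have hg1 : ∀ x x' i, g x x' i ≤ 1 := fun x x' i => by
    refine div_le_one_of_le₀ ?_
      (mul_nonneg (Real.rpow_nonneg (hL' i) _) (Real.rpow_nonneg (hs _ _) _))
    rw [← Real.mul_rpow (hL' i) (hs _ _)]
    exact Real.rpow_le_rpow (abs_nonneg _) (hlip' _ _ _) hq0.le
  have hzero : ∀ x x' i, L' i * s x x' = 0 → |Y' x i - Y' x' i| ^ q = 0 := fun x x' i h => by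
    have := hlip' x x' i
    rw [h] at this
    rw [le_antisymm this (abs_nonneg _), Real.zero_rpow hq0.ne']
  have hterm : ∀ x x' i, w i * g x x' i = |Y' x i - Y' x' i| ^ q / (Z * s x x' ^ q) := by
    intro x x' i
    by_cases h : L' i * s x x' = 0
    · simp [hg, hzero x x' i h]
    · obtain ⟨h1, h2⟩ := mul_ne_zero_iff.1 h
      have := Real.rpow_pos_of_pos ((hL' i).lt_of_ne' h1) q
      have := Real.rpow_pos_of_pos ((hs x x').lt_of_ne' h2) q
      simp only [hw, hg]
      field_simp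
  have hspos : ∀ x x', pd q Y x x' ≠ 0 → 0 < s x x' ^ q := fun x x' h => by
    refine Real.rpow_pos_of_pos ((hs x x').lt_of_ne' fun h0 => h ?_) q
    rw [← hpd]
    exact Finset.sum_eq_zero fun i _ => hzero x x' i (by rw [h0, mul_zero])
  set mm : Fin n → Fin n → ℝ := fun x x' => (M : ℝ) / Z * (pd q Y x x' / s x x' ^ q) with hmm
  have hmean : ∀ x x', ∑ _t : Fin M, ∑ i, w i * g x x' i = mm x x' := fun x x' => by
    rw [Finset.sum_const, Finset.card_univ, Fintype.card_fin, nsmul_eq_mul]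
    simp_rw [hterm, ← Finset.sum_div]
    rw [show ∑ i, |Y' x i - Y' x' i| ^ q = pd q Y' x x' from rfl, hpd, hmm]
    ring
  set cnt : Fin n → Option ι → ℝ := fun x i => if Y' x i ≠ 0 then 1 else 0 with hcnt
  have hcmean : ∀ x, ∑ _t : Fin M, ∑ i, w i * cnt x i ≤ (G + 1) * A := fun x => by
    have h1 : ∑ i, w i * cnt x i = (∑ i ∈ univ.filter (fun i => Y x i ≠ 0), L i ^ q) / Z := by
      rw [Fintype.sum_option, Finset.sum_filter, Finset.sum_div]
      have hn : w none * cnt x none = 0 := by simp [hcnt, Y']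
      rw [hn, zero_add]
      refine Finset.sum_congr rfl fun i _ => ?_
      by_cases h : Y x i = 0 <;> simp [hcnt, hw, Y', L', h]
    rw [Finset.sum_const, Finset.card_univ, Fintype.card_fin, nsmul_eq_mul, h1, ← mul_div_assoc,
      div_le_iff₀ (by linarith)]
    calc (M : ℝ) * ∑ i ∈ univ.filter (fun i => Y x i ≠ 0), L i ^ q ≤ (Z * G + 1) * A :=
          mul_le_mul hM2 (hmass x) (Finset.sum_nonneg fun i _ => Real.rpow_nonneg (hL i) _)
            (by nlinarith)
      _ ≤ (G + 1) * A * Z := by nlinarith [mul_le_mul_of_nonneg_left hZ1 (by linarith : 0 ≤ A)]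
  let B : (Fin n × Fin n) ⊕ Fin n → (Fin M → Option ι) → Prop := fun p ω => match p with
    | Sum.inl p => pd q Y p.1 p.2 ≠ 0 ∧ (∑ t, g p.1 p.2 (ω t) ≤ (1 - ε) * mm p.1 p.2 ∨
        (1 + ε) * mm p.1 p.2 ≤ ∑ t, g p.1 p.2 (ω t))
    | Sum.inr x => (1 + 1) * ((G + 1) * A) ≤ ∑ t, cnt x (ω t)
  have hB : ∀ p, prob W (B p) ≤ 2 * Real.exp (-(6 * K)) := by
    rintro (⟨x, x'⟩ | x)
    · by_cases h : pd q Y x x' = 0
      · have hnot : ∀ ω, ¬ B (Sum.inl (x, x')) ω := fun ω hb => hb.1 h
        calc prob W (B (Sum.inl (x, x'))) = 0 := by simp [prob, hnot]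
          _ ≤ _ := by positivity
      · have hsp := hspos x x' h
        have hm0 : 0 ≤ mm x x' :=
          mul_nonneg (div_nonneg hMpos.le (by linarith)) (div_nonneg (pd_nonneg _ _ _) hsp.le)
        have hlow : G / (2 : ℝ) ^ q ≤ mm x x' := by
          rw [hmm, ← mul_one_div G]
          refine mul_le_mul ?_ ?_ (by positivity) (div_nonneg hMpos.le (by linarith))
          · rw [le_div_iff₀ (by linarith)]; linarith
          · rw [div_le_div_iff₀ (by linarith) hsp]; linarith [hspd x x']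
        have hu := chernoff_upper (T := Fin M) (κ := fun _ => Option ι) (w := fun _ => w)
          (fun _ => hwp) (fun _ => g x x') (fun _ => hg0 _ _) (fun _ => hg1 _ _) (m := mm x x')
          hm0 (hmean x x').le hε (by linarith)
        have hl := chernoff_lower (T := Fin M) (κ := fun _ => Option ι) (w := fun _ => w)
          (fun _ => hwp) (fun _ => g x x') (fun _ => hg0 _ _) (fun _ => hg1 _ _) (m := mm x x')
          hm0 (hmean x x').ge hε (by linarith)
        have he : Real.exp (-(ε ^ 2 / 4 * mm x x')) ≤ Real.exp (-(6 * K)) := by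
          refine Real.exp_le_exp.2 (neg_le_neg ?_)
          calc 6 * K ≤ ε ^ 2 / 4 * (G / (2 : ℝ) ^ q) := by
                rw [← mul_div_assoc, le_div_iff₀ (by linarith)]
                linarith
            _ ≤ _ := mul_le_mul_of_nonneg_left hlow (by positivity)
        calc prob W (B (Sum.inl (x, x'))) ≤ prob W (fun ω =>
              ∑ t, g x x' (ω t) ≤ (1 - ε) * mm x x' ∨ (1 + ε) * mm x x' ≤ ∑ t, g x x' (ω t)) :=
              prob_mono hWp.nonneg fun ω hb => hb.2
          _ ≤ _ := prob_or_le hWp.nonneg _ _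
          _ ≤ _ := add_le_add (hl.trans he) (hu.trans he)
          _ = _ := by ring
    · refine (chernoff_upper (T := Fin M) (κ := fun _ => Option ι) (w := fun _ => w)
        (fun _ => hwp) (fun _ => cnt x) (fun _ i => ?_) (fun _ i => ?_) (m := (G + 1) * A) (ε := 1)
        (mul_nonneg (by linarith) (by linarith)) (hcmean x) one_pos (by norm_num)).trans ?_
      · simp only [hcnt]; split_ifs <;> norm_num
      · simp only [hcnt]; split_ifs <;> norm_num
      · refine le_trans (Real.exp_le_exp.2 (neg_le_neg ?_))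
          (le_mul_of_one_le_left (Real.exp_pos _).le one_le_two)
        nlinarith
  obtain ⟨ω, hω⟩ := exists_of_small_bad hWp B _ hB (by
    rw [Fintype.card_sum, Fintype.card_prod, Fintype.card_fin]
    push_cast
    have h1 := pow_mul_exp_le n 2 (c := 6) (by norm_num)
    have h2 := pow_mul_exp_le n 1 (c := 6) (by norm_num)
    rw [← hKdef] at h1 h2
    have h3 : Real.exp (-(6 : ℝ)) < 1 / 4 := by
      rw [Real.exp_neg, inv_lt_comm₀ (Real.exp_pos _) (by norm_num)]
      linarith [Real.add_one_le_exp (6 : ℝ)]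
    linarith)
  refine ⟨M, fun x t => (Z / (M * L' (ω t) ^ q)) ^ q⁻¹ * Y' x (ω t), fun x x' => ?_, fun x x' => ?_⟩
  · have hzq : pd q (fun x t => (Z / (M * L' (ω t) ^ q)) ^ q⁻¹ * Y' x (ω t)) x x'
        = Z / M * s x x' ^ q * ∑ t, g x x' (ω t) := by
      rw [Finset.mul_sum]
      refine Finset.sum_congr rfl fun t _ => ?_
      have hpos : 0 ≤ Z / (M * L' (ω t) ^ q) :=
        div_nonneg (by linarith) (mul_nonneg hMpos.le (Real.rpow_nonneg (hL' _) _))
      rw [← mul_sub, abs_mul, Real.mul_rpow (abs_nonneg _) (abs_nonneg _),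
        abs_of_nonneg (Real.rpow_nonneg hpos _), Real.rpow_inv_rpow hpos hq0.ne']
      simp only [hg]
      by_cases h : L' (ω t) * s x x' = 0
      · simp [hzero x x' _ h]
      · obtain ⟨h1, h2⟩ := mul_ne_zero_iff.1 h
        have := Real.rpow_pos_of_pos ((hL' (ω t)).lt_of_ne' h1) q
        have := Real.rpow_pos_of_pos ((hs x x').lt_of_ne' h2) q
        field_simp
    rw [hzq]
    by_cases h : pd q Y x x' = 0
    · have : ∀ t, g x x' (ω t) = 0 := fun t => by
        rw [← hpd] at h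
        have := abs_sub_eq_zero_of_pd_eq_zero hq0 h (ω t)
        simp [hg, this, Real.zero_rpow hq0.ne']
      simp [this, h]
    · have hsp := hspos x x' h
      have hnot := hω (Sum.inl (x, x'))
      simp only [B, not_and, not_or, not_le] at hnot
      obtain ⟨h1, h2⟩ := hnot h
      have hc : Z / M * s x x' ^ q * mm x x' = pd q Y x x' := by
        rw [hmm]
        field_simp
      have hpos : 0 ≤ Z / M * s x x' ^ q :=
        mul_nonneg (div_nonneg (by linarith) hMpos.le) hsp.le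
      constructor
      · calc (1 - ε) * pd q Y x x' = Z / M * s x x' ^ q * ((1 - ε) * mm x x') := by
              rw [mul_left_comm, hc]
          _ ≤ _ := mul_le_mul_of_nonneg_left h1.le hpos
      · calc _ ≤ Z / M * s x x' ^ q * ((1 + ε) * mm x x') :=
              mul_le_mul_of_nonneg_left h2.le hpos
          _ = _ := by rw [mul_left_comm, hc]
  · have hone : ∀ x, ((univ.filter fun t => Y' x (ω t) ≠ 0).card : ℝ) ≤ 4 * G * A := fun x => by
      have := hω (Sum.inr x)
      simp only [B, hcnt, not_le, Finset.sum_boole] at this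
      nlinarith
    have hsub : (univ.filter fun t => (Z / (M * L' (ω t) ^ q)) ^ q⁻¹ * Y' x (ω t) -
        (Z / (M * L' (ω t) ^ q)) ^ q⁻¹ * Y' x' (ω t) ≠ 0) ⊆
        (univ.filter fun t => Y' x (ω t) ≠ 0) ∪ (univ.filter fun t => Y' x' (ω t) ≠ 0) := by
      intro t ht
      simp only [Finset.mem_filter, Finset.mem_union, Finset.mem_univ, true_and] at ht ⊢
      by_contra hc
      push Not at hc
      simp [hc.1, hc.2] at ht
    have := (Nat.cast_le (α := ℝ)).2 ((Finset.card_le_card hsub).trans (Finset.card_union_le _ _))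
    push_cast at this
    linarith [hone x, hone x']

/-- Step C. -/
theorem sparsifySpec {q : ℝ} (hq : 1 ≤ q) : SparsifySpec q := by
  intro ε hε hε1
  set e := ε / 3 with he
  have he0 : 0 < e := by positivity
  have he1 : e < 1 := by linarith
  set a := 24 * (2 : ℝ) ^ q / e ^ 2 with ha
  have ha0 : 0 < a := by positivity
  refine ⟨768 / e ^ 2 * (8 * a) ^ (2 + 2 * q), 3 + 2 * q, by positivity, by linarith, ?_⟩
  intro n ι _ Y L s A hA hL hs hlip hmass hspd
  set K := Real.log n + 1 with hK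
  have hK1 : 1 ≤ K := by linarith [Real.log_natCast_nonneg n]
  have hAK : 1 ≤ A * K := one_le_mul_of_one_le_of_one_le hA hK1
  have ha1 : 1 ≤ a := by
    rw [ha, one_le_div (by positivity)]
    nlinarith [Real.one_le_rpow (show (1 : ℝ) ≤ 2 by norm_num) (show 0 ≤ q by linarith)]
  obtain ⟨M, u, hu, hsupp⟩ := exists_sampling hq Y L s hA hL hs hlip hmass hspd he0 he1
    (G := a * K) (le_of_eq (by rw [ha, hK]; field_simp))
  set R := 8 * a * (A * K) with hR
  have hR1 : 1 ≤ R := by nlinarith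
  have hsupp' : ∀ x x', ((univ.filter fun t => u x t - u x' t ≠ 0).card : ℝ) ≤ R :=
    fun x x' => (hsupp x x').trans_eq (by rw [hR]; ring)
  set N := ⌈4 * R ^ (2 + q) / e⌉₊ with hN
  set M2 := ⌈48 * K * R ^ q / e⌉₊ with hM2
  have hRq : 1 ≤ R ^ q := Real.one_le_rpow hR1 (by linarith)
  have hR2 : 1 ≤ R ^ (2 + q) := Real.one_le_rpow hR1 (by linarith)
  have hbig1 : 1 ≤ 4 * R ^ (2 + q) / e := by rw [one_le_div he0]; linarith
  have hbig2 : 1 ≤ 48 * K * R ^ q / e := by
    rw [one_le_div he0]; nlinarith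
  obtain ⟨z, hz⟩ := exists_hashing hq (M2 := M2) (N := N) u he0 hR1
    (by have := (div_le_iff₀ he0).1 (Nat.le_ceil (48 * K * R ^ q / e)); rw [← hK]; linarith)
    (by have := (div_le_iff₀ he0).1 (Nat.le_ceil (4 * R ^ (2 + q) / e)); linarith) hsupp'
  refine ⟨Fintype.card (Fin M2 × Fin N),
    fun x l => z x ((Fintype.equivFin (Fin M2 × Fin N)).symm l), ?_, fun x x' => ?_⟩
  · rw [Fintype.card_prod, Fintype.card_fin, Fintype.card_fin, Nat.cast_mul]
    have h1 : (N : ℝ) ≤ 2 * (4 * R ^ (2 + q) / e) := by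
      linarith [Nat.ceil_lt_add_one (zero_le_one.trans hbig1)]
    have h2 : (M2 : ℝ) ≤ 2 * (48 * K * R ^ q / e) := by
      linarith [Nat.ceil_lt_add_one (zero_le_one.trans hbig2)]
    have hAK0 : 0 < A * K := by linarith
    have hRsplit : R ^ q * R ^ (2 + q) = (8 * a) ^ (2 + 2 * q) * (A * K) ^ (2 + 2 * q) := by
      rw [← Real.rpow_add (by linarith), hR, Real.mul_rpow (by positivity) hAK0.le]
      ring_nf
    have hpow : (A * K) ^ (3 + 2 * q) = A * K * (A * K) ^ (2 + 2 * q) := by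
      rw [show 3 + 2 * q = 1 + (2 + 2 * q) by ring, Real.rpow_add hAK0, Real.rpow_one]
    calc (M2 : ℝ) * N ≤ 2 * (48 * K * R ^ q / e) * (2 * (4 * R ^ (2 + q) / e)) :=
          mul_le_mul h2 h1 (Nat.cast_nonneg _) (by linarith)
      _ = 768 / e ^ 2 * K * (R ^ q * R ^ (2 + q)) := by field_simp; ring
      _ ≤ 768 / e ^ 2 * (A * K) * (R ^ q * R ^ (2 + q)) := by
          gcongr
          exact le_mul_of_one_le_left (by linarith) hA
      _ = _ := by rw [hRsplit, hpow]; ring
  · have hzz : pd q (fun x l => z x ((Fintype.equivFin (Fin M2 × Fin N)).symm l)) x x'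
        = pd q z x x' :=
      Equiv.sum_comp (Fintype.equivFin (Fin M2 × Fin N)).symm (fun k => |z x k - z x' k| ^ q)
    rw [hzz]
    obtain ⟨h1, h2⟩ := hu x x'
    obtain ⟨h3, h4⟩ := hz x x'
    have hP := pd_nonneg (p := q) Y x x'
    constructor
    · refine le_trans ?_ h3
      refine le_trans ?_ (mul_le_mul_of_nonneg_left h1 (by linarith))
      rw [← mul_assoc]
      refine mul_le_mul_of_nonneg_right ?_ hP
      nlinarith
    · refine h4.trans ((mul_le_mul_of_nonneg_left h2 (by linarith)).trans ?_)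
      rw [← mul_assoc]
      refine mul_le_mul_of_nonneg_right ?_ hP
      nlinarith

end Vale.Agent.P249.Sub
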